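import Vale.Agent.N243.Defs
import Mathlib.Analysis.InnerProductSpace.ProdL2
import Mathlib.Analysis.InnerProductSpace.Dual
import Mathlib.Analysis.SpecialFunctions.Trigonometric.Chebyshev.Orthogonality
import Mathlib.Analysis.Convex.Combination
import Mathlib.LinearAlgebra.AffineSpace.FiniteDimensional
import Mathlib.MeasureTheory.Measure.Lebesgue.Integral
import Mathlib.Analysis.SpecialFunctions.Integrals.Basic

/-! An Archimedes weight bound for cylinder coverings of tetrahedra. -/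

set_option linter.all false

open MeasureTheory Set Metric
open scoped ENNReal RealInnerProductSpace

namespace Vale.Agent.N243L

open Vale.Agent.N243

/-- The weight on a line. -/
noncomputable def g (a t : ℝ) : ℝ≥0∞ := ENNReal.ofReal (√(a - t ^ 2))⁻¹

theorem measurable_g (a : ℝ) : Measurable (g a) := by
  unfold g
  fun_prop

/-- The mass of a chord. -/
noncomputable def J : ℝ≥0∞ := ∫⁻ t, g 1 t

theorem g_zero {a t : ℝ} (h : a ≤ t ^ 2) : g a t = 0 := by
  unfold g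
  rw [Real.sqrt_eq_zero'.2 (by linarith), inv_zero, ENNReal.ofReal_zero]

theorem line_pos {a : ℝ} (ha : 0 < a) : ∫⁻ t, g a t = J := by
  have hs : 0 < √a := Real.sqrt_pos.2 ha
  have h1 := Real.smul_map_volume_mul_left hs.ne'
  have h2 : ∀ t, g a (√a * t) = ENNReal.ofReal (√a)⁻¹ * g 1 t := by
    intro t
    unfold g
    rw [← ENNReal.ofReal_mul (by positivity), ← mul_inv, ← Real.sqrt_mul ha.le]
    congr 3
    rw [mul_pow, Real.sq_sqrt ha.le]
    ring
  conv_lhs => rw [← h1]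
  rw [lintegral_smul_measure, lintegral_map (measurable_g a) (by fun_prop)]
  simp only [h2]
  rw [lintegral_const_mul _ (measurable_g 1), smul_eq_mul, ← mul_assoc,
    ← ENNReal.ofReal_mul (abs_nonneg _), abs_of_pos hs, mul_inv_cancel₀ hs.ne',
    ENNReal.ofReal_one, one_mul]
  rfl

theorem line_neg {a : ℝ} (ha : a ≤ 0) : ∫⁻ t, g a t = 0 := by
  have : ∀ t, g a t = 0 := fun t => g_zero (ha.trans (sq_nonneg t))
  simp only [this, lintegral_zero]

theorem J_ne_top : J ≠ ∞ := by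
  have h1 := Polynomial.Chebyshev.intervalIntegrable_sqrt_one_sub_sq_inv.1
  have h2 : J = ∫⁻ t in Ioc (-1 : ℝ) 1, g 1 t := by
    unfold J
    rw [← lintegral_indicator measurableSet_Ioc]
    refine lintegral_congr fun t => ?_
    by_cases ht : t ∈ Ioc (-1 : ℝ) 1
    · rw [indicator_of_mem ht]
    · rw [indicator_of_notMem ht]
      refine g_zero ?_
      rw [mem_Ioc, not_and_or, not_lt, not_le] at ht
      rcases ht with ht | ht <;> nlinarith
  rw [h2]
  refine ne_of_lt (lt_of_le_of_lt (lintegral_mono fun t => ?_) h1.2)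
  unfold g
  rw [← Real.sqrt_inv]
  exact Real.ofReal_le_enorm _

theorem J_ne_zero : J ≠ 0 := by
  have h1 : ∫⁻ _ in Ioo (-1 : ℝ) 1, (1 : ℝ≥0∞) ≤ ∫⁻ t in Ioo (-1 : ℝ) 1, g 1 t := by
    refine setLIntegral_mono (measurable_g 1) fun t ht => ?_
    unfold g
    rw [← ENNReal.ofReal_one]
    refine ENNReal.ofReal_le_ofReal ?_
    have h3 : 0 < 1 - t ^ 2 := by nlinarith [ht.1, ht.2]
    refine (one_le_inv₀ (Real.sqrt_pos.2 h3)).2 ?_
    exact Real.sqrt_le_one.2 (by nlinarith)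
  have h2 : ∫⁻ t in Ioo (-1 : ℝ) 1, g 1 t ≤ J := setLIntegral_le_lintegral _ _
  intro h
  rw [h] at h2
  have := h1.trans h2
  simp at this
  norm_num at this

variable {V : Type} [NormedAddCommGroup V] [InnerProductSpace ℝ V]
  [FiniteDimensional ℝ V] [MeasurableSpace V] [BorelSpace V]

/-- Orthogonal projection onto `u^⊥`. -/
noncomputable abbrev P (u : V) : V →L[ℝ] (ℝ ∙ u)ᗮ := (ℝ ∙ u)ᗮ.orthogonalProjectionOnto

theorem P_add {u : V} (b : (ℝ ∙ u)ᗮ) (t : ℝ) : P u ((b : V) + t • u) = b := by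
  rw [map_add, map_smul, Submodule.orthogonalProjectionOnto_mem_subspace_eq_self,
    Submodule.orthogonalProjectionOnto_orthogonalComplement_singleton_eq_zero, smul_zero,
    add_zero]

theorem norm_add {u : V} (hu : ‖u‖ = 1) (b : (ℝ ∙ u)ᗮ) (t : ℝ) :
    ‖(b : V) + t • u‖ ^ 2 = ‖b‖ ^ 2 + t ^ 2 := by
  have h : ⟪u, (b : V)⟫ = 0 := Submodule.mem_orthogonal_singleton_iff_inner_right.1 b.2
  rw [norm_add_sq_real, inner_smul_right, real_inner_comm, h, norm_smul, hu]
  simp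

theorem mp {u : V} (hu : ‖u‖ = 1) :
    MeasurePreserving (fun p : (ℝ ∙ u)ᗮ × ℝ => (p.1 : V) + p.2 • u) := by
  have h1 := (ℝ ∙ u).orthogonalDecomposition.symm.measurePreserving
  have h2 := WithLp.volume_preserving_toLp (ℝ ∙ u) (ℝ ∙ u)ᗮ
  have h3 := (LinearIsometryEquiv.toSpanUnitSingleton (𝕜 := ℝ) u hu).measurePreserving.prod
    (MeasurePreserving.id (volume : Measure (ℝ ∙ u)ᗮ))
  have h4 := Measure.measurePreserving_swap (μ := (volume : Measure (ℝ ∙ u)ᗮ))
    (ν := (volume : Measure ℝ))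
  have h5 := (h1.comp h2).comp (h3.comp h4)
  convert h5 using 1
  · ext p
    simp [add_comm]
  · rfl

/-- The weight on the ball of radius `√a`. -/
noncomputable def mu (V : Type) [NormedAddCommGroup V] [InnerProductSpace ℝ V]
  [FiniteDimensional ℝ V] [MeasurableSpace V] [BorelSpace V] (a : ℝ) : Measure V :=
  volume.withDensity fun x => g a ‖x‖

theorem meas_w (a : ℝ) : Measurable fun x : V => g a ‖x‖ := (measurable_g a).comp measurable_norm

theorem mu_cyl {u : V} (hu : ‖u‖ = 1) (a : ℝ) {A : Set (ℝ ∙ u)ᗮ} (hA : MeasurableSet A) :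
    mu V a (P u ⁻¹' A) = J * volume (A ∩ {b | ‖b‖ ^ 2 < a}) := by
  have hm : MeasurableSet (P u ⁻¹' A) := (P u).continuous.measurable hA
  have hm2 : MeasurableSet (A ∩ {b | ‖b‖ ^ 2 < a}) :=
    hA.inter (measurableSet_lt (by fun_prop) measurable_const)
  unfold mu
  rw [withDensity_apply _ hm, ← lintegral_indicator hm,
    ← (mp hu).lintegral_comp ((meas_w a).indicator hm), Measure.volume_eq_prod,
    lintegral_prod (fun p : (ℝ ∙ u)ᗮ × ℝ =>
      (P u ⁻¹' A).indicator (fun x => g a ‖x‖) ((p.1 : V) + p.2 • u))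
      (((meas_w a).indicator hm).comp (mp hu).measurable).aemeasurable,
    ← setLIntegral_const, ← lintegral_indicator hm2]
  refine lintegral_congr fun b => ?_
  by_cases hb : b ∈ A
  · have h1 : ∀ t : ℝ, (P u ⁻¹' A).indicator (fun x => g a ‖x‖) ((b : V) + t • u) =
        g (a - ‖b‖ ^ 2) t := by
      intro t
      rw [indicator_of_mem (by rw [mem_preimage, P_add]; exact hb)]
      unfold g
      rw [norm_add hu, sub_sub]
    simp only [h1]
    by_cases hc : ‖b‖ ^ 2 < a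
    · rw [line_pos (by linarith), indicator_of_mem (show b ∈ A ∩ {b | ‖b‖ ^ 2 < a} from ⟨hb, hc⟩)]
    · rw [line_neg (by linarith), indicator_of_notMem fun h => hc h.2]
  · have h1 : ∀ t : ℝ, (P u ⁻¹' A).indicator (fun x => g a ‖x‖) ((b : V) + t • u) = 0 := by
      intro t
      rw [indicator_of_notMem (by rw [mem_preimage, P_add]; exact hb)]
    simp only [h1, lintegral_zero]
    rw [indicator_of_notMem fun h => hb h.1]

theorem mu_cyl_le {u : V} (hu : ‖u‖ = 1) (a : ℝ) (A : Set (ℝ ∙ u)ᗮ) :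
    mu V a (P u ⁻¹' A) ≤ J * volume A := by
  refine (measure_mono (preimage_mono (subset_toMeasurable volume A))).trans ?_
  rw [mu_cyl hu a (measurableSet_toMeasurable _ _), ← measure_toMeasurable A]
  gcongr
  exact inter_subset_left

theorem mu_iso (e : V ≃ₗᵢ[ℝ] V) (a : ℝ) {A : Set V} (hA : MeasurableSet A) :
    mu V a (e ⁻¹' A) = mu V a A := by
  have hm : MeasurableSet (e ⁻¹' A) := e.continuous.measurable hA
  unfold mu
  rw [withDensity_apply _ hm, withDensity_apply _ hA,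
    ← e.measurePreserving.setLIntegral_comp_preimage hA (meas_w a)]
  simp only [e.norm_map]

/-- An open half-space. -/
def cap (n : V) (r : ℝ) : Set V := {x | r < ⟪n, x⟫}

theorem meas_cap (n : V) (r : ℝ) : MeasurableSet (cap n r) :=
  measurableSet_lt measurable_const (by fun_prop)

theorem mu_cap {n n' : V} (h : ‖n‖ = ‖n'‖) (a r : ℝ) : mu V a (cap n r) = mu V a (cap n' r) := by
  rw [← mu_iso ((ℝ ∙ (n - n'))ᗮ.reflection) a (meas_cap n' r)]
  congr 1
  ext x
  change r < _ ↔ r < _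
  have h1 := ((ℝ ∙ (n - n'))ᗮ.reflection).inner_map_map n x
  rw [Submodule.reflection_sub h] at h1
  rw [h1]

theorem mu_inter (a : ℝ) {A : Set V} (hA : MeasurableSet A) :
    mu V a (A ∩ {x | ‖x‖ ^ 2 < a}) = mu V a A := by
  have hm : MeasurableSet {x : V | ‖x‖ ^ 2 < a} := measurableSet_lt (by fun_prop) measurable_const
  refine measure_inter_conull ?_
  unfold mu
  rw [withDensity_apply _ hm.compl]
  refine setLIntegral_eq_zero hm.compl fun x hx => g_zero (not_lt.1 hx)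

theorem vol_coord {W : Type} [NormedAddCommGroup W] [InnerProductSpace ℝ W]
    [FiniteDimensional ℝ W] [MeasurableSpace W] [BorelSpace W] (f : OrthonormalBasis (Fin 2) ℝ W) :
    MeasurePreserving fun b : W => (⟪f 0, b⟫, ⟪f 1, b⟫) := by
  have h1 := f.measurePreserving_repr
  have h2 := PiLp.volume_preserving_ofLp (Fin 2)
  have h3 := volume_preserving_finTwoArrow ℝ
  have h4 := (h3.comp h2).comp h1
  have h5 : (fun b : W => (⟪f 0, b⟫, ⟪f 1, b⟫)) =
      (⇑MeasurableEquiv.finTwoArrow ∘ WithLp.ofLp) ∘ ⇑f.repr := by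
    ext b <;> simp [f.repr_apply_apply]
  rw [h5]
  exact h4

theorem rank_perp (hV : Module.finrank ℝ V = 3) {u : V} (hu : u ≠ 0) :
    Module.finrank ℝ (ℝ ∙ u)ᗮ = 2 := by
  have := (ℝ ∙ u).finrank_add_finrank_orthogonal
  rw [finrank_span_singleton hu, hV] at this
  omega

theorem inner_P {u : V} (f : (ℝ ∙ u)ᗮ) (x : V) : ⟪f, P u x⟫ = ⟪(f : V), x⟫ :=
  Submodule.inner_orthogonalProjectionOnto_eq_of_mem_left f x

/-- The ball contains four caps and a square prism. -/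
theorem mu_ball (hV : Module.finrank ℝ V = 3) {n : V} (hn : ‖n‖ = 1) {r : ℝ} (hr : 0 < r) :
    J * ENNReal.ofReal (4 * r ^ 2) + 4 * mu V (2 * r ^ 2) (cap n r) ≤ mu V (2 * r ^ 2) univ ∧
      mu V (2 * r ^ 2) univ ≠ ∞ := by
  have hn0 : n ≠ 0 := by
    rintro rfl
    simp at hn
  let f : OrthonormalBasis (Fin 2) ℝ (ℝ ∙ n)ᗮ :=
    (stdOrthonormalBasis ℝ (ℝ ∙ n)ᗮ).reindex (finCongr (rank_perp hV hn0))
  have hf : ∀ i, ‖(f i : V)‖ = 1 := fun i => f.orthonormal.1 i
  have hb : ∀ b : (ℝ ∙ n)ᗮ, ‖b‖ ^ 2 = ⟪f 0, b⟫ ^ 2 + ⟪f 1, b⟫ ^ 2 := by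
    intro b
    rw [← f.sum_sq_inner_right b, Fin.sum_univ_two]
  have hx : ∀ x : V, ⟪(f 0 : V), x⟫ ^ 2 + ⟪(f 1 : V), x⟫ ^ 2 ≤ ‖x‖ ^ 2 := by
    intro x
    rw [← inner_P, ← inner_P, ← hb]
    exact pow_le_pow_left₀ (norm_nonneg _) (Submodule.norm_orthogonalProjectionOnto_apply_le _ x) 2
  constructor
  · set a := 2 * r ^ 2 with ha
    set D : Set V := {x | ‖x‖ ^ 2 < a} with hD
    have hmD : MeasurableSet D := measurableSet_lt (by fun_prop) measurable_const
    set Q : Set (ℝ ∙ n)ᗮ := (fun b => (⟪f 0, b⟫, ⟪f 1, b⟫)) ⁻¹' (Ioo (-r) r ×ˢ Ioo (-r) r) with hQ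
    have hmQ : MeasurableSet Q :=
      (vol_coord f).measurable (measurableSet_Ioo.prod measurableSet_Ioo)
    have h1 : mu V a (P n ⁻¹' Q) = J * ENNReal.ofReal (4 * r ^ 2) := by
      rw [mu_cyl hn a hmQ, inter_eq_left.2, hQ, (vol_coord f).measure_preimage
        (measurableSet_Ioo.prod measurableSet_Ioo).nullMeasurableSet, Measure.volume_eq_prod,
        Measure.prod_prod, Real.volume_Ioo, ← ENNReal.ofReal_mul (by linarith)]
      · congr 2
        ring
      · rintro b ⟨⟨h1, h2⟩, h3, h4⟩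
        change ‖b‖ ^ 2 < a
        rw [hb]
        nlinarith
    have hQ' : ∀ x ∈ P n ⁻¹' Q, (-r < ⟪(f 0 : V), x⟫ ∧ ⟪(f 0 : V), x⟫ < r) ∧
        -r < ⟪(f 1 : V), x⟫ ∧ ⟪(f 1 : V), x⟫ < r := by
      intro x hx
      rw [← inner_P, ← inner_P]
      exact hx
    have h2 : ∀ m : V, ‖m‖ = 1 → mu V a (cap m r ∩ D) = mu V a (cap n r) := fun m hm => by
      rw [hD, mu_inter a (meas_cap m r), mu_cap (hm.trans hn.symm)]
    have hc : ∀ m : V, MeasurableSet (cap m r ∩ D) := fun m => (meas_cap m r).inter hmD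
    have hp : ∀ {m x : V}, x ∈ cap m r ∩ D → r < ⟪m, x⟫ ∧ ‖x‖ ^ 2 < 2 * r ^ 2 := fun h => h
    have hq : ∀ {m x : V}, x ∈ cap (-m) r ∩ D → ⟪m, x⟫ < -r ∧ ‖x‖ ^ 2 < 2 * r ^ 2 := by
      intro m x h
      have := (hp h).1
      rw [inner_neg_left] at this
      exact ⟨by linarith, h.2⟩
    have h3 : mu V a ((((P n ⁻¹' Q ∪ cap (f 0) r ∩ D) ∪ cap (-f 0) r ∩ D) ∪ cap (f 1) r ∩ D) ∪
        cap (-f 1) r ∩ D) = J * ENNReal.ofReal (4 * r ^ 2) + 4 * mu V a (cap n r) := by
      rw [measure_union _ (hc _), measure_union _ (hc _), measure_union _ (hc _),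
        measure_union _ (hc _), h1, h2 _ (hf 0), h2 _ (hf 1), h2 _ ((norm_neg _).trans (hf 0)),
        h2 _ ((norm_neg _).trans (hf 1))]
      · ring
      all_goals rw [Set.disjoint_left]
      · intro x h1 h2
        linarith [(hQ' x h1).1.2, (hp h2).1]
      · rintro x (h1 | h1) h2
        · linarith [(hQ' x h1).1.1, (hq h2).1]
        · linarith [(hp h1).1, (hq h2).1]
      · rintro x ((h1 | h1) | h1) h2
        · linarith [(hQ' x h1).2.2, (hp h2).1]
        · nlinarith [(hp h1).1, (hp h2).1, (hp h2).2, hx x]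
        · nlinarith [(hq h1).1, (hp h2).1, (hp h2).2, hx x]
      · rintro x (((h1 | h1) | h1) | h1) h2
        · linarith [(hQ' x h1).2.1, (hq h2).1]
        · nlinarith [(hp h1).1, (hq h2).1, (hq h2).2, hx x]
        · nlinarith [(hq h1).1, (hq h2).1, (hq h2).2, hx x]
        · linarith [(hp h1).1, (hq h2).1]
    rw [← h3]
    exact measure_mono (subset_univ _)
  · rw [← preimage_univ (f := P n), mu_cyl hn _ MeasurableSet.univ, univ_inter]
    refine ENNReal.mul_ne_top J_ne_top (ne_of_lt (lt_of_le_of_lt (measure_mono ?_)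
      (measure_ball_lt_top (x := 0) (r := 2 * r))))
    intro b hb
    rw [mem_ball_zero_iff]
    change ‖b‖ ^ 2 < 2 * r ^ 2 at hb
    exact lt_of_pow_lt_pow_left₀ 2 (by linarith) (by nlinarith)

/-- A set containing an intersection of four half-spaces at distance `r` from a point. -/
theorem arch_core (hV : Module.finrank ℝ V = 3) {K : Set V} {c : V} {r : ℝ} (hr : 0 < r)
    {n : Fin 4 → V} (hn : ∀ j, ‖n j‖ = 1) (hK : ∀ x, (∀ j, ⟪n j, x⟫ ≤ r) → c + x ∈ K)
    {m : ℕ} {u : Fin m → V} {B : ∀ i, Base (u i)} (h : Covers K u B) :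
    4 * r ^ 2 ≤ ∑ i, area (B i) := by
  obtain ⟨h1, h2⟩ := mu_ball hV (hn 0) hr
  set a := 2 * r ^ 2
  have h3 : (univ : Set V) ⊆ (⋃ i, P (u i) ⁻¹' ((fun b => P (u i) c + b) ⁻¹' B i)) ∪
      ⋃ j, cap (n j) r := by
    intro x _
    by_cases hx : ∀ j, ⟪n j, x⟫ ≤ r
    · obtain ⟨i, b, hb, t, ht⟩ := h.2 _ (hK x hx)
      refine Or.inl (mem_iUnion.2 ⟨i, ?_⟩)
      change P (u i) c + P (u i) x ∈ B i
      rw [← map_add, ht, P_add]
      exact hb
    · rw [not_forall] at hx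
      obtain ⟨j, hj⟩ := hx
      exact Or.inr (mem_iUnion.2 ⟨j, not_le.1 hj⟩)
  have h4 : mu V a univ ≤ J * ∑ i, volume (B i) + 4 * mu V a (cap (n 0) r) := by
    refine (measure_mono h3).trans ((measure_union_le _ _).trans (add_le_add ?_ ?_))
    · refine (measure_iUnion_fintype_le _ _).trans ?_
      rw [Finset.mul_sum]
      refine Finset.sum_le_sum fun i _ => (mu_cyl_le (h.1 i).1 a _).trans ?_
      rw [measure_preimage_add]
    · refine (measure_iUnion_fintype_le _ _).trans ?_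
      have : ∀ j, mu V a (cap (n j) r) = mu V a (cap (n 0) r) :=
        fun j => mu_cap ((hn j).trans (hn 0).symm) a r
      simp only [this]
      simp
  have h5 : 4 * mu V a (cap (n 0) r) ≠ ∞ :=
    ENNReal.mul_ne_top (by simp) (ne_top_of_le_ne_top h2 (measure_mono (subset_univ _)))
  have h6 := (ENNReal.mul_le_mul_iff_right J_ne_zero J_ne_top).1
    ((ENNReal.add_le_add_iff_right h5).1 (h1.trans h4))
  have h7 : ∑ i, volume (B i) ≠ ∞ := ENNReal.sum_ne_top.2 fun i _ => (h.1 i).2.2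
  have h8 := ENNReal.toReal_mono h7 h6
  rw [ENNReal.toReal_ofReal (by positivity), ENNReal.toReal_sum fun i _ => (h.1 i).2.2] at h8
  exact h8

theorem exists_basis (hV : Module.finrank ℝ V = 3) {v : Fin 4 → V} (hv : AffineIndependent ℝ v) :
    ∃ b : AffineBasis (Fin 4) ℝ V, ⇑b = v :=
  ⟨⟨v, hv, hv.affineSpan_eq_top_iff_card_eq_finrank_add_one.2 (by simp [hV])⟩, rfl⟩

/-- A tetrahedron containing a ball of radius `r` needs total base area at least `4 r ^ 2`. -/
theorem arch (hV : Module.finrank ℝ V = 3) {v : Fin 4 → V} {T : Set V} (hT : IsTet v T)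
    {c : V} {r : ℝ} (hr : 0 ≤ r) (hc : closedBall c r ⊆ T)
    {m : ℕ} {u : Fin m → V} {B : ∀ i, Base (u i)} (h : Covers T u B) :
    4 * r ^ 2 ≤ ∑ i, area (B i) := by
  rcases hr.eq_or_lt with rfl | hr
  · have : 0 ≤ ∑ i, area (B i) := Finset.sum_nonneg fun i _ => ENNReal.toReal_nonneg
    linarith
  obtain ⟨b, rfl⟩ := exists_basis hV hT.1
  have hT' : ∀ x, x ∈ T ↔ ∀ j, 0 ≤ b.coord j x := fun x => by
    rw [hT.2, b.convexHull_eq_nonneg_coord]
    rfl
  have key : ∀ j, ∃ n : V, ‖n‖ = 1 ∧ ∀ x, ⟪n, x⟫ ≤ r → 0 ≤ b.coord j (c + x) := by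
    intro j
    set l : V →L[ℝ] ℝ := LinearMap.toContinuousLinearMap (b.coord j).linear with hl
    set w : V := (InnerProductSpace.toDual ℝ V).symm l with hw
    have h1 : ∀ x, b.coord j (c + x) = ⟪w, x⟫ + b.coord j c := by
      intro x
      rw [hw, InnerProductSpace.toDual_symm_apply, add_comm c x]
      exact (b.coord j).map_vadd c x
    have h2 : w ≠ 0 := by
      intro h0
      have h3 := h1 (b j - c)
      have h4 := h1 (b (j + 1) - c)
      rw [h0, inner_zero_left, add_sub_cancel] at h3 h4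
      rw [b.coord_apply_eq] at h3
      rw [b.coord_apply_ne (by fin_cases j <;> decide)] at h4
      linarith
    have h3 : 0 < ‖w‖ := norm_pos_iff.2 h2
    have h4 : ‖(-‖w‖⁻¹) • w‖ = 1 := by
      rw [norm_smul, norm_neg, norm_inv, norm_norm, inv_mul_cancel₀ h3.ne']
    refine ⟨(-‖w‖⁻¹) • w, h4, fun x hx => ?_⟩
    have h5 := (hT' _).1 (hc (show c + r • (-‖w‖⁻¹) • w ∈ closedBall c r by
      rw [mem_closedBall, dist_eq_norm, add_sub_cancel_left, norm_smul, h4, mul_one,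
        Real.norm_of_nonneg hr.le])) j
    rw [h1, inner_smul_right, inner_smul_right, real_inner_self_eq_norm_sq] at h5
    rw [real_inner_smul_left] at hx
    rw [h1]
    have h6 : r * (-‖w‖⁻¹ * ‖w‖ ^ 2) = -(r * ‖w‖) := by field_simp
    have h7 : -‖w‖⁻¹ * ⟪w, x⟫ * ‖w‖ = -⟪w, x⟫ := by field_simp
    have h8 := mul_le_mul_of_nonneg_right hx h3.le
    linarith
  choose n hn1 hn2 using key
  exact arch_core hV hr hn1 (fun x hx => (hT' _).2 fun j => hn2 j x (hx j)) h

theorem Amin_le (K : Set V) {u : V} (hu : ‖u‖ = 1) : Amin K ≤ shadow K u :=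
  csInf_le ⟨0, by rintro _ ⟨u, -, rfl⟩; exact ENNReal.toReal_nonneg⟩ ⟨u, hu, rfl⟩

theorem vol_tri {s : ℝ} (hs : 0 ≤ s) (k : ℝ) (hk : 0 ≤ k) :
    volume {p : ℝ × ℝ | p.1 ∈ Icc 0 s ∧ p.2 ∈ Icc (-(k * p.1)) (k * p.1)} =
      ENNReal.ofReal (k * s ^ 2) := by
  have hm : MeasurableSet {p : ℝ × ℝ | p.1 ∈ Icc 0 s ∧ p.2 ∈ Icc (-(k * p.1)) (k * p.1)} :=
    measurableSet_region_between_cc (f := fun x => -(k * x)) (g := fun x => k * x)
      (by fun_prop) (by fun_prop) measurableSet_Icc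
  have h1 : ∀ x : ℝ, volume (Prod.mk x ⁻¹'
      {p : ℝ × ℝ | p.1 ∈ Icc 0 s ∧ p.2 ∈ Icc (-(k * p.1)) (k * p.1)}) =
        (Icc 0 s).indicator (fun x => ENNReal.ofReal (2 * k * x)) x := by
    intro x
    by_cases hx : x ∈ Icc 0 s
    · rw [indicator_of_mem hx]
      have : Prod.mk x ⁻¹' {p : ℝ × ℝ | p.1 ∈ Icc 0 s ∧ p.2 ∈ Icc (-(k * p.1)) (k * p.1)} =
          Icc (-(k * x)) (k * x) := by
        ext y
        exact ⟨fun h => h.2, fun h => ⟨hx, h⟩⟩
      rw [this, Real.volume_Icc]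
      congr 1
      ring
    · rw [indicator_of_notMem hx]
      have : Prod.mk x ⁻¹' {p : ℝ × ℝ | p.1 ∈ Icc 0 s ∧ p.2 ∈ Icc (-(k * p.1)) (k * p.1)} = ∅ := by
        ext y
        exact ⟨fun h => hx h.1, fun h => h.elim⟩
      rw [this, measure_empty]
  rw [Measure.volume_eq_prod, Measure.prod_apply hm]
  simp only [h1]
  rw [lintegral_indicator measurableSet_Icc, ← ofReal_integral_eq_lintegral_ofReal,
    integral_Icc_eq_integral_Ioc, ← intervalIntegral.integral_of_le hs,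
    intervalIntegral.integral_const_mul, integral_id]
  · congr 1
    ring
  · exact (by fun_prop : Continuous fun x : ℝ => 2 * k * x).integrableOn_Icc
  · refine (ae_restrict_iff' measurableSet_Icc).2 (Filter.Eventually.of_forall fun x hx => ?_)
    have := hx.1
    change (0 : ℝ) ≤ 2 * k * x
    positivity

section regular

variable {v : Fin 4 → V} {a : ℝ} (ha : ∀ j k, j ≠ k → ‖v j - v k‖ = a)
include ha

theorem gram (j k : Fin 4) :
    ⟪v j - v 0, v k - v 0⟫ =
      ((if j = 0 then 0 else a ^ 2) + (if k = 0 then 0 else a ^ 2) -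
        (if j = k then 0 else a ^ 2)) / 2 := by
  have h : ∀ j k : Fin 4, ‖v j - v k‖ ^ 2 = if j = k then 0 else a ^ 2 := by
    intro j k
    split_ifs with h
    · simp [h]
    · rw [ha j k h]
  have h1 := norm_sub_sq_real (v j - v 0) (v k - v 0)
  rw [sub_sub_sub_cancel_right, h, h, h] at h1
  linarith

theorem edge_pos (hv : AffineIndependent ℝ v) : 0 < a := by
  rw [← ha 0 1 (by decide)]
  exact norm_pos_iff.2 (sub_ne_zero.2 fun h => absurd (hv.injective h) (by decide))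

theorem gram3 (x1 x2 x3 y1 y2 y3 : ℝ) :
    ⟪x1 • (v 1 - v 0) + x2 • (v 2 - v 0) + x3 • (v 3 - v 0),
      y1 • (v 1 - v 0) + y2 • (v 2 - v 0) + y3 • (v 3 - v 0)⟫ =
      a ^ 2 / 2 * (x1 * y1 + x2 * y2 + x3 * y3 + (x1 + x2 + x3) * (y1 + y2 + y3)) := by
  simp only [inner_add_left, inner_add_right, real_inner_smul_left, real_inner_smul_right, gram ha]
  simp
  ring

omit ha in
theorem coord_sub (b : AffineBasis (Fin 4) ℝ V) (x : V) :
    x - b 0 = b.coord 1 x • (b 1 - b 0) + b.coord 2 x • (b 2 - b 0) + b.coord 3 x • (b 3 - b 0) := by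
  have h1 := b.linear_combination_coord_eq_self x
  have h2 := b.sum_coord_apply_eq_one x
  rw [Fin.sum_univ_four] at h1 h2
  have h3 : b.coord 0 x = 1 - b.coord 1 x - b.coord 2 x - b.coord 3 x := by linarith
  rw [h3] at h1
  conv_lhs => rw [← h1]
  module

/-- The inscribed ball of a regular tetrahedron. -/
theorem inball (hV : Module.finrank ℝ V = 3) {T : Set V} (hT : IsTet v T) :
    ∃ c, closedBall c (a / √24) ⊆ T := by
  have h0 := edge_pos ha hT.1
  obtain ⟨b, rfl⟩ := exists_basis hV hT.1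
  refine ⟨b 0 + ((1 / 4 : ℝ) • (b 1 - b 0) + (1 / 4 : ℝ) • (b 2 - b 0) +
    (1 / 4 : ℝ) • (b 3 - b 0)), fun x hx => ?_⟩
  rw [hT.2, b.convexHull_eq_nonneg_coord]
  rw [mem_closedBall, dist_eq_norm, ← sub_sub, coord_sub b x] at hx
  have h2 := b.sum_coord_apply_eq_one x
  rw [Fin.sum_univ_four] at h2
  change ∀ j, 0 ≤ b.coord j x
  generalize hl : (fun j => b.coord j x) = l
  have hl' : ∀ j, b.coord j x = l j := fun j => congrFun hl j
  simp only [hl'] at hx h2 ⊢
  have h3 : l 1 • (b 1 - b 0) + l 2 • (b 2 - b 0) + l 3 • (b 3 - b 0) -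
      ((1 / 4 : ℝ) • (b 1 - b 0) + (1 / 4 : ℝ) • (b 2 - b 0) + (1 / 4 : ℝ) • (b 3 - b 0)) =
      (l 1 - 1 / 4) • (b 1 - b 0) + (l 2 - 1 / 4) • (b 2 - b 0) + (l 3 - 1 / 4) • (b 3 - b 0) := by
    module
  rw [h3] at hx
  have h4 := pow_le_pow_left₀ (norm_nonneg _) hx 2
  rw [← real_inner_self_eq_norm_sq, gram3 ha, div_pow, Real.sq_sqrt (by norm_num)] at h4
  have h5 : (l 0 - 1 / 4) ^ 2 + (l 1 - 1 / 4) ^ 2 + (l 2 - 1 / 4) ^ 2 + (l 3 - 1 / 4) ^ 2 ≤
      1 / 12 := by
    have h6 : l 0 = 1 - l 1 - l 2 - l 3 := by linarith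
    have h7 : 0 < a ^ 2 / 2 := by positivity
    refine le_of_mul_le_mul_left ?_ h7
    rw [h6]
    linarith
  have key : ∀ p q s t : ℝ, p + q + s + t = 1 →
      (p - 1 / 4) ^ 2 + (q - 1 / 4) ^ 2 + (s - 1 / 4) ^ 2 + (t - 1 / 4) ^ 2 ≤ 1 / 12 → 0 ≤ p := by
    intro p q s t e1 e2
    by_contra hp
    have e3 : t = 1 - p - q - s := by linarith
    subst e3
    nlinarith [sq_nonneg (q - s), sq_nonneg (q + 2 * s + p - 1), sq_nonneg (2 * q + s + p - 1)]
  intro j
  fin_cases j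
  · exact key _ _ _ _ h2 h5
  · exact key (l 1) (l 0) (l 2) (l 3) (by linarith) (by linarith)
  · exact key (l 2) (l 0) (l 1) (l 3) (by linarith) (by linarith)
  · exact key (l 3) (l 0) (l 1) (l 2) (by linarith) (by linarith)

/-- The shadow of a regular tetrahedron along an edge. -/
theorem Amin_regular (hV : Module.finrank ℝ V = 3) {T : Set V} (hT : IsTet v T) :
    Amin T ≤ √2 / 4 * a ^ 2 := by
  have h0 := edge_pos ha hT.1
  obtain ⟨b, rfl⟩ := exists_basis hV hT.1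
  have hs : 0 < √2 := by positivity
  have hs2 : √2 * √2 = 2 := Real.mul_self_sqrt (by norm_num)
  set u : V := a⁻¹ • (b 1 - b 0) + (0 : ℝ) • (b 2 - b 0) + (0 : ℝ) • (b 3 - b 0) with hu
  set f0 : V := (-(√2 / 2 * a⁻¹)) • (b 1 - b 0) + (√2 / 2 * a⁻¹) • (b 2 - b 0) +
    (√2 / 2 * a⁻¹) • (b 3 - b 0) with hf0
  set f1 : V := (0 : ℝ) • (b 1 - b 0) + (-a⁻¹) • (b 2 - b 0) + a⁻¹ • (b 3 - b 0) with hf1
  have unit : ∀ {x : V}, ⟪x, x⟫ = 1 → ‖x‖ = 1 := fun h => by
    rw [real_inner_self_eq_norm_sq] at h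
    exact (pow_eq_one_iff_of_nonneg (norm_nonneg _) two_ne_zero).1 h
  have hu1 : ‖u‖ = 1 := unit (by rw [gram3 ha]; field_simp; ring)
  have hu0 : u ≠ 0 := by
    intro h
    rw [h] at hu1
    simp at hu1
  have m0 : f0 ∈ (ℝ ∙ u)ᗮ := Submodule.mem_orthogonal_singleton_iff_inner_right.2 (by
    rw [gram3 ha]; ring)
  have m1 : f1 ∈ (ℝ ∙ u)ᗮ := Submodule.mem_orthogonal_singleton_iff_inner_right.2 (by
    rw [gram3 ha]; ring)
  have n0 : ‖f0‖ = 1 := unit (by rw [gram3 ha]; field_simp; nlinarith)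
  have n1 : ‖f1‖ = 1 := unit (by rw [gram3 ha]; field_simp; ring)
  have n01 : ⟪f0, f1⟫ = 0 := by rw [gram3 ha]; ring
  have hon : Orthonormal ℝ (![⟨f0, m0⟩, ⟨f1, m1⟩] : Fin 2 → (ℝ ∙ u)ᗮ) := by
    refine ⟨fun i => by fin_cases i; exacts [n0, n1], fun i j hij => ?_⟩
    fin_cases i <;> fin_cases j
    · exact absurd rfl hij
    · exact n01
    · exact (real_inner_comm _ _).trans n01
    · exact absurd rfl hij
  let f : OrthonormalBasis (Fin 2) ℝ (ℝ ∙ u)ᗮ :=
    (basisOfOrthonormalOfCardEqFinrank hon (by simp [rank_perp hV hu0])).toOrthonormalBasis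
      (by simpa using hon)
  have e0 : (f 0 : V) = f0 := by simp [f]
  have e1 : (f 1 : V) = f1 := by simp [f]
  set S : Set (ℝ × ℝ) := {p | p.1 ∈ Icc 0 (√2 / 2 * a) ∧
    p.2 ∈ Icc (-(√2 / 2 * p.1)) (√2 / 2 * p.1)} with hS
  have hm : MeasurableSet S :=
    measurableSet_region_between_cc (f := fun x => -(√2 / 2 * x)) (g := fun x => √2 / 2 * x)
      (by fun_prop) (by fun_prop) measurableSet_Icc
  have hsub : P u '' T ⊆ (fun y => y + -P u (b 0)) ⁻¹'
      ((fun y => (⟪f 0, y⟫, ⟪f 1, y⟫)) ⁻¹' S) := by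
    rintro _ ⟨x, hx, rfl⟩
    rw [hT.2, b.convexHull_eq_nonneg_coord] at hx
    have h2 := b.sum_coord_apply_eq_one x
    rw [Fin.sum_univ_four] at h2
    rw [mem_preimage, mem_preimage, ← sub_eq_add_neg, ← map_sub, inner_P, inner_P, e0, e1,
      coord_sub b x, gram3 ha, gram3 ha]
    have a0 := hx 0
    have a1 := hx 1
    have a2 := hx 2
    have a3 := hx 3
    generalize b.coord 0 x = l0 at *
    generalize b.coord 1 x = l1 at *
    generalize b.coord 2 x = l2 at *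
    generalize b.coord 3 x = l3 at *
    have q0 : a ^ 2 / 2 * (-(√2 / 2 * a⁻¹) * l1 + √2 / 2 * a⁻¹ * l2 + √2 / 2 * a⁻¹ * l3 +
        (-(√2 / 2 * a⁻¹) + √2 / 2 * a⁻¹ + √2 / 2 * a⁻¹) * (l1 + l2 + l3)) =
        √2 / 2 * a * (l2 + l3) := by
      field_simp
      ring
    have q1 : a ^ 2 / 2 * (0 * l1 + -a⁻¹ * l2 + a⁻¹ * l3 + (0 + -a⁻¹ + a⁻¹) * (l1 + l2 + l3)) =
        a / 2 * (l3 - l2) := by
      field_simp
      ring
    have q2 : √2 / 2 * (√2 / 2 * a * (l2 + l3)) = a / 2 * (l2 + l3) := by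
      linear_combination (a * (l2 + l3) / 4) * hs2
    rw [q0, q1]
    refine ⟨⟨by positivity, ?_⟩, ?_, ?_⟩
    · exact mul_le_of_le_one_right (by positivity) (by linarith)
    · change -(√2 / 2 * (√2 / 2 * a * (l2 + l3))) ≤ a / 2 * (l3 - l2)
      rw [q2]
      nlinarith
    · change a / 2 * (l3 - l2) ≤ √2 / 2 * (√2 / 2 * a * (l2 + l3))
      rw [q2]
      nlinarith
  have h3 := measure_mono (μ := volume) hsub
  rw [measure_preimage_add_right, (vol_coord f).measure_preimage hm.nullMeasurableSet, hS,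
    vol_tri (by positivity) _ (by positivity)] at h3
  refine (Amin_le T hu1).trans ((ENNReal.toReal_le_of_le_ofReal (by positivity) h3).trans ?_)
  refine le_of_eq ?_
  linear_combination (√2 * a ^ 2 / 8) * hs2

/-- Every covering of a regular tetrahedron has total base area at least `√2 / 3` of `Amin`. -/
theorem arch_regular (hV : Module.finrank ℝ V = 3) {T : Set V} (hT : IsTet v T)
    {m : ℕ} {u : Fin m → V} {B : ∀ i, Base (u i)} (h : Covers T u B) :
    √2 / 3 * Amin T ≤ ∑ i, area (B i) := by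
  have h0 := edge_pos ha hT.1
  obtain ⟨c, hc⟩ := inball ha hV hT
  refine le_trans ?_ (arch hV hT (by positivity) hc h)
  have hs2 : √2 * √2 = 2 := Real.mul_self_sqrt (by norm_num)
  refine (mul_le_mul_of_nonneg_left (Amin_regular ha hV hT) (by positivity)).trans (le_of_eq ?_)
  rw [div_pow, Real.sq_sqrt (by norm_num)]
  linear_combination (a ^ 2 / 12) * hs2

end regular

end Vale.Agent.N243L
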