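import Vale.Agent.N243.Gen

/-! Coverings of the tetrahedron `K0` written in the coordinates in which its vertices are
`(1,1,1)`, `(1,-1,-1)`, `(-1,1,-1)`, `(-1,-1,1)`. -/

set_option linter.all false

open MeasureTheory Set

namespace Vale.Agent.N243L

open Vale.Agent.P243

/-- First cube coordinate. -/
def cX (v : E3) : ℝ := 1 - 2 * v 2
/-- Second cube coordinate. -/
def cY (v : E3) : ℝ := 1 - 2 * v 0 - 2 * v 1
/-- Third cube coordinate. -/
def cZ (v : E3) : ℝ := 1 - 2 * v 0 - 2 * v 2 + 2 * v 1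

/-- The points whose cube coordinates satisfy `P` can be covered at relative cost `c`. -/
def Cov (P : ℝ → ℝ → ℝ → Prop) (c : ℝ) : Prop := Coverable {v | P (cX v) (cY v) (cZ v)} c

variable {P Q : ℝ → ℝ → ℝ → Prop} {c c' : ℝ}

theorem Cov.mono (h : Cov Q c') (hP : ∀ X Y Z, P X Y Z → Q X Y Z) (hc : c' ≤ c) : Cov P c :=
  Coverable.mono h (fun _ hv => hP _ _ _ hv) hc

theorem Cov.or (h : Cov P c) (h' : Cov Q c') :
    Cov (fun X Y Z => P X Y Z ∨ Q X Y Z) (c + c') :=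
  Coverable.union h h'

theorem coverable_aff (L : E3 →L[ℝ] E3) (w : E3) (hi : ∀ v, L (L v + w) + w = v)
    (hK : ∀ v ∈ K0, L v + w ∈ K0) {S : Set E3} {t : ℝ} (h : Coverable S t) :
    Coverable ((fun v => L v + w) ⁻¹' S) t := by
  obtain ⟨ι, _, φ, R, h1, h2, h3⟩ := h
  have hs : Function.Surjective L := fun y => ⟨L (y + w) + w, add_right_cancel (hi _)⟩
  refine ⟨ι, inferInstance, fun i => (φ i).comp L, fun i => (fun y => y + φ i w) ⁻¹' R i,
    fun i => ⟨(h1 i).1.comp hs, (measurable_add_const _) (h1 i).2.1, ?_, ?_⟩, ?_, ?_⟩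
  · rw [measure_preimage_add_right]
    exact (h1 i).2.2.1
  · have h4 : (φ i).comp L '' K0 = (fun y => y + φ i w) ⁻¹' (φ i '' K0) := by
      ext y
      constructor
      · rintro ⟨x, hx, rfl⟩
        exact ⟨_, hK x hx, map_add _ _ _⟩
      · rintro ⟨x, hx, hy⟩
        refine ⟨_, hK x hx, add_right_cancel (b := φ i w) ?_⟩
        change φ i (L (L x + w)) + φ i w = _
        rw [← map_add, hi]
        exact hy
    rw [h4, measure_preimage_add_right]
    exact (h1 i).2.2.2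
  · intro x hx
    obtain ⟨i, hx'⟩ := mem_iUnion.1 (h2 hx)
    refine mem_iUnion.2 ⟨i, ?_⟩
    change φ i (L x) + φ i w ∈ R i
    rw [← map_add]
    exact hx'
  · simpa only [measure_preimage_add_right] using h3

/-- The symmetry exchanging the first two cube coordinates. -/
noncomputable def swL : E3 →L[ℝ] E3 := LinearMap.toContinuousLinearMap
  { toFun := fun v => mk3 (v 2 - v 1) (v 1) (v 0 + v 1)
    map_add' := fun x y => by
      ext j
      fin_cases j <;> simp [mk3] <;> ring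
    map_smul' := fun r x => by
      ext j
      fin_cases j <;> simp [mk3] <;> ring }

/-- The linear part of the symmetry changing the signs of the first and last coordinate. -/
noncomputable def flL : E3 →L[ℝ] E3 := LinearMap.toContinuousLinearMap
  { toFun := fun v => mk3 (v 1) (v 0) (-v 2)
    map_add' := fun x y => by
      ext j
      fin_cases j <;> simp [mk3] <;> ring
    map_smul' := fun r x => by
      ext j
      fin_cases j <;> simp [mk3] }

theorem sw_apply (v : E3) : (swL v + 0) 0 = v 2 - v 1 ∧ (swL v + 0) 1 = v 1 ∧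
    (swL v + 0) 2 = v 0 + v 1 := by
  rw [add_zero]
  exact ⟨rfl, rfl, rfl⟩

theorem fl_apply (v : E3) : (flL v + mk3 0 0 1) 0 = v 1 ∧ (flL v + mk3 0 0 1) 1 = v 0 ∧
    (flL v + mk3 0 0 1) 2 = 1 - v 2 := by
  refine ⟨?_, ?_, ?_⟩ <;> simp [flL, mk3]
  ring

theorem Cov.swap (h : Cov P c) : Cov (fun X Y Z => P Y X Z) c := by
  refine (coverable_aff swL 0 (fun v => ?_) (fun v hv => ?_) h).mono (fun v hv => ?_) le_rfl
  · obtain ⟨a0, a1, a2⟩ := sw_apply v
    obtain ⟨b0, b1, b2⟩ := sw_apply (swL v + 0)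
    ext j
    fin_cases j
    · exact b0.trans (by rw [a2, a1]; simp)
    · exact b1.trans a1
    · exact b2.trans (by rw [a0, a1]; simp)
  · obtain ⟨a0, a1, a2⟩ := sw_apply v
    obtain ⟨h0, h1, h2, h3⟩ := hv
    refine ⟨?_, ?_, ?_, ?_⟩ <;> simp only [a0, a1, a2] <;> linarith
  · obtain ⟨a0, a1, a2⟩ := sw_apply v
    change P (cX _) (cY _) (cZ _)
    have e1 : cX (swL v + 0) = cY v := by simp only [cX, cY, a2]; ring
    have e2 : cY (swL v + 0) = cX v := by simp only [cX, cY, a0, a1]; ring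
    have e3 : cZ (swL v + 0) = cZ v := by simp only [cZ, a0, a1, a2]; ring
    rw [e1, e2, e3]
    exact hv

theorem Cov.flip (h : Cov P c) : Cov (fun X Y Z => P (-X) Y (-Z)) c := by
  refine (coverable_aff flL (mk3 0 0 1) (fun v => ?_) (fun v hv => ?_) h).mono
    (fun v hv => ?_) le_rfl
  · obtain ⟨a0, a1, a2⟩ := fl_apply v
    obtain ⟨b0, b1, b2⟩ := fl_apply (flL v + mk3 0 0 1)
    ext j
    fin_cases j
    · exact b0.trans a1
    · exact b1.trans a0
    · exact b2.trans (by rw [a2]; simp)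
  · obtain ⟨a0, a1, a2⟩ := fl_apply v
    obtain ⟨h0, h1, h2, h3⟩ := hv
    refine ⟨?_, ?_, ?_, ?_⟩ <;> simp only [a0, a1, a2] <;> linarith
  · obtain ⟨a0, a1, a2⟩ := fl_apply v
    change P (cX _) (cY _) (cZ _)
    have e1 : cX (flL v + mk3 0 0 1) = -cX v := by simp only [cX, a2]; ring
    have e2 : cY (flL v + mk3 0 0 1) = cY v := by simp only [cY, a0, a1]; ring
    have e3 : cZ (flL v + mk3 0 0 1) = -cZ v := by simp only [cZ, a0, a1, a2]; ring
    rw [e1, e2, e3]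
    exact hv

/-- One cylinder over a parallelogram. -/
theorem Cov.tube (a b g p w q h : ℝ) (hw : 0 ≤ w) (hh : 0 ≤ h) :
    Cov (fun X Y Z => p ≤ Y - a * X ∧ Y - a * X ≤ p + w ∧ q ≤ Z - b * X - g * Y ∧
      Z - b * X - g * Y ≤ q + h) (w * h / 4) := by
  set φ := lin 1 1 (-a) ((g - 1) / 2) ((g + 1) / 2) ((b - 1) / 2) with hφ
  set R : Set (ℝ × ℝ) := Icc (-(p + w) / 2 - (a - 1) / 2) (-p / 2 - (a - 1) / 2) ×ˢ
    Icc (q / 4 - (1 - b - g) / 4) ((q + h) / 4 - (1 - b - g) / 4) with hR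
  have hgood : Good φ R := by
    refine ⟨?_, measurableSet_Icc.prod measurableSet_Icc, volume_rect_ne_top _ _ _ _, ?_⟩
    · intro z
      refine ⟨mk3 ((z.1 - 2 * z.2 + g * z.1) / 2) ((z.1 + 2 * z.2 - g * z.1) / 2) 0, ?_⟩
      rw [hφ, lin_apply, mk3_0, mk3_1, mk3_2]
      refine Prod.ext ?_ ?_ <;> simp only <;> ring
    · rw [hφ]
      exact shadow_transversal _ _ _ _ _ _ (by ring)
  refine (Coverable.single hgood).mono ?_ ?_
  · rintro v ⟨h0, h1, h2, h3⟩
    simp only [cX, cY, cZ] at h0 h1 h2 h3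
    rw [mem_preimage, hφ, lin_apply, hR, mem_prod, mem_Icc, mem_Icc]
    refine ⟨⟨?_, ?_⟩, ?_, ?_⟩ <;> simp only <;> linarith only [h0, h1, h2, h3]
  · rw [hR, volume_rect _ _ _ _ (by linarith only [hw]) (by linarith only [hh])]
    apply le_of_eq
    ring

/-- Riemann sums: a cost estimate on short parameter intervals adds up. -/
theorem Cov.glue (S : ℝ → ℝ → ℝ → ℝ → ℝ → Prop)
    (hS : ∀ s t u, t ≤ u → ∀ X Y Z, S s u X Y Z → S s t X Y Z ∨ S t u X Y Z) (G : ℝ → ℝ)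
    {a b : ℝ} (C : ℝ) (hab : a < b) (h : ∀ s δ, a ≤ s → 0 < δ → s + δ ≤ b →
      Cov (S s (s + δ)) (G (s + δ) - G s + C * δ ^ 2)) {ε : ℝ} (hε : 0 < ε) :
    Cov (S a b) (G b - G a + ε) := by
  obtain ⟨n, hn⟩ := exists_nat_gt (|C| * (b - a) ^ 2 / ε)
  have hba : 0 < b - a := sub_pos.2 hab
  have hn0 : (0 : ℝ) < n := lt_of_le_of_lt (by positivity) hn
  set δ := (b - a) / n with hδ
  have hδ0 : 0 < δ := by positivity
  have hnδ : a + (n : ℝ) * δ = b := by rw [hδ]; field_simp; ring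
  have h1 : ∀ i : ℕ, 1 ≤ i → i ≤ n →
      Cov (S a (a + i * δ)) (G (a + i * δ) - G a + i * (C * δ ^ 2)) := by
    intro i hi1
    induction i, hi1 using Nat.le_induction with
    | base =>
      intro hi
      have h2 : (1 : ℝ) * δ ≤ n * δ := mul_le_mul_of_nonneg_right (by exact_mod_cast hi) hδ0.le
      simpa using h a δ le_rfl hδ0 (by linarith)
    | succ i _ ih =>
      intro hi
      have h2 : ((i : ℝ) + 1) * δ ≤ n * δ :=
        mul_le_mul_of_nonneg_right (by exact_mod_cast hi) hδ0.le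
      have h3 : 0 ≤ (i : ℝ) * δ := by positivity
      have h4 := (ih (Nat.le_of_succ_le hi)).or (h (a + i * δ) δ (by linarith) hδ0 (by linarith))
      have h5 : a + ((i + 1 : ℕ) : ℝ) * δ = a + i * δ + δ := by push_cast; ring
      rw [h5]
      exact h4.mono (hS _ _ _ (by linarith)) (le_of_eq (by push_cast; ring))
  have h2 := h1 n (by exact_mod_cast hn0) le_rfl
  rw [hnδ] at h2
  refine h2.mono (fun _ _ _ h => h) ?_
  have h3 : (n : ℝ) * (C * δ ^ 2) = C * (b - a) ^ 2 / n := by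
    rw [hδ]; field_simp
  have h4 : C * (b - a) ^ 2 ≤ |C| * (b - a) ^ 2 :=
    mul_le_mul_of_nonneg_right (le_abs_self C) (sq_nonneg _)
  rw [div_lt_iff₀ hε] at hn
  have h5 : C * (b - a) ^ 2 / n ≤ ε := by
    rw [div_le_iff₀ hn0]
    linarith
  linarith

/-- One family of rulings of a hyperbolic paraboloid covers a layer whose thickness is constant
along the rulings. -/
theorem Cov.fam (a v₁ v₂ c : ℝ) {γ k A B U₁ M : ℝ} (hγ : 0 < γ) (hk : 0 ≤ k) (hB : 0 ≤ B)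
    (hU : 0 < U₁) (hM : 0 ≤ M) (hA : B * U₁ ^ 2 ≤ A) {ε : ℝ} (hε : 0 < ε) :
    Cov (fun X Y Z => ∃ U, -U₁ ≤ U ∧ U ≤ U₁ ∧ Y - a * X = γ * U ∧ |v₁ * X + v₂ * Y| ≤ M ∧
      0 ≤ Z - (c + k * U * (v₁ * X + v₂ * Y)) ∧
      Z - (c + k * U * (v₁ * X + v₂ * Y)) ≤ A - B * U ^ 2)
      (γ * (A * U₁ - B * U₁ ^ 3 / 3) / 2 + ε) := by
  have main : ∀ s δ, -U₁ ≤ s → 0 ≤ δ → s + δ ≤ U₁ →
      Cov (fun X Y Z => ∃ U, s ≤ U ∧ U ≤ s + δ ∧ Y - a * X = γ * U ∧ |v₁ * X + v₂ * Y| ≤ M ∧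
      0 ≤ Z - (c + k * U * (v₁ * X + v₂ * Y)) ∧
      Z - (c + k * U * (v₁ * X + v₂ * Y)) ≤ A - B * U ^ 2)
      (γ * (A * (s + δ) - B * (s + δ) ^ 3 / 3) / 4 - γ * (A * s - B * s ^ 3 / 3) / 4
        + γ * (B * U₁ + k * M) / 2 * δ ^ 2) := by
    intro s δ h0 hδ h1
    have key : ∀ U, s ≤ U → U ≤ s + δ →
        A - B * U ^ 2 ≤ A - B * (s ^ 2 + s * δ + δ ^ 2 / 3) + 2 * B * U₁ * δ := by
      intro U h2 h3
      have h4 : s * (δ - 2 * (U - s)) ≤ U₁ * δ := by
        have h5 : |s * (δ - 2 * (U - s))| ≤ U₁ * δ := by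
          rw [abs_mul]
          exact mul_le_mul (abs_le.2 ⟨h0, by linarith⟩) (abs_le.2 ⟨by linarith, by linarith⟩)
            (abs_nonneg _) hU.le
        exact (le_abs_self _).trans h5
      have h6 : δ * δ ≤ 2 * U₁ * δ := mul_le_mul_of_nonneg_right (by linarith) hδ
      have h7 : s ^ 2 + s * δ + δ ^ 2 / 3 - U ^ 2 ≤ 2 * U₁ * δ := by
        nlinarith [sq_nonneg (U - s), mul_nonneg hU.le hδ]
      have h8 := mul_le_mul_of_nonneg_left h7 hB
      linarith
    have hkδ : 0 ≤ k * δ := mul_nonneg hk hδ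
    have hkM : 0 ≤ k * δ * M := mul_nonneg hkδ hM
    refine (Cov.tube a (k * s * v₁) (k * s * v₂) (γ * s) (γ * δ) (c - k * δ * M)
      (A - B * (s ^ 2 + s * δ + δ ^ 2 / 3) + 2 * B * U₁ * δ + 2 * (k * δ * M)) (by positivity)
      ?_).mono ?_ (le_of_eq (by ring))
    · have h2 := key s le_rfl (by linarith)
      have h3 : s ^ 2 ≤ U₁ ^ 2 := sq_le_sq' h0 (by linarith)
      have h4 := mul_le_mul_of_nonneg_left h3 hB
      linarith
    · rintro X Y Z ⟨U, h2, h3, h4, h5, h6, h7⟩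
      have h8 := key U h2 h3
      have h9 : |k * (U - s) * (v₁ * X + v₂ * Y)| ≤ k * δ * M := by
        rw [abs_mul]
        refine mul_le_mul ?_ h5 (abs_nonneg _) hkδ
        rw [abs_of_nonneg (mul_nonneg hk (by linarith))]
        exact mul_le_mul_of_nonneg_left (by linarith) hk
      obtain ⟨k1, k2⟩ := abs_le.1 h9
      have k3 := mul_le_mul_of_nonneg_left h2 hγ.le
      have k4 := mul_le_mul_of_nonneg_left h3 hγ.le
      refine ⟨by linarith, by linarith, by linarith, by linarith⟩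
  refine (Cov.glue (fun s u X Y Z => ∃ U, s ≤ U ∧ U ≤ u ∧ Y - a * X = γ * U ∧
      |v₁ * X + v₂ * Y| ≤ M ∧ 0 ≤ Z - (c + k * U * (v₁ * X + v₂ * Y)) ∧
      Z - (c + k * U * (v₁ * X + v₂ * Y)) ≤ A - B * U ^ 2) ?_
    (fun U => γ * (A * U - B * U ^ 3 / 3) / 4) (γ * (B * U₁ + k * M) / 2) (by linarith)
    (fun s δ h0 hδ h1 => main s δ h0 hδ.le h1) hε).mono (fun _ _ _ h => h) (le_of_eq (by ring))
  rintro s t u - X Y Z ⟨U, h1, h2, h3⟩
  exact (le_total U t).imp (fun h => ⟨U, h1, h, h3⟩) fun h => ⟨U, h, h2, h3⟩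

end Vale.Agent.N243L
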