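import Vale.Agent.N243.Defs
import Mathlib.Analysis.SpecialFunctions.Log.Basic

/-! The constants `c₃`, `r₃` of the problem and an explicit bound. -/

namespace Vale.Agent.N243L

open Vale.Agent.N243

variable (V : Type) [NormedAddCommGroup V] [InnerProductSpace ℝ V] [FiniteDimensional ℝ V]
  [MeasurableSpace V] [BorelSpace V]

/-- The infimum of `∑ |B i| / Amin K` over all convex bodies and finite cylinder coverings. -/
noncomputable def c3 : ℝ :=
  sInf {x | ∃ (K : Set V) (m : ℕ) (u : Fin m → V) (B : ∀ i, Base (u i)),
    IsBody K ∧ Covers K u B ∧ x = (∑ i, area (B i)) / Amin K}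

/-- The infimum of the directionwise relative area over all convex bodies and finite cylinder
coverings. -/
noncomputable def r3 : ℝ :=
  sInf {x | ∃ (K : Set V) (m : ℕ) (u : Fin m → V) (B : ∀ i, Base (u i)),
    IsBody K ∧ Covers K u B ∧ x = ∑ i, area (B i) / shadow K (u i)}

/-- The curvature parameter belonging to `t`. -/
noncomputable def kap (t : ℝ) : ℝ := 2 * t * (1 + t - t * Real.log t) / (1 + t) ^ 2

/-- The relative area reached with parameter `t`. -/
noncomputable def bound (t : ℝ) : ℝ :=
  4 / (3 * kap t ^ 2) * (t * (1 + kap t) / (1 + t) - Real.log (1 + t))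

end Vale.Agent.N243L
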