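import Vale.Agent.N243L.Cov
import Mathlib.Analysis.SpecialFunctions.Log.Basic

/-! The tetrahedron is cut along the quadric `Z = κ X Y`; each half is swept by hyperbolic
paraboloids of constant discriminant, and each thin layer is covered by tubes along both
rulings. -/

set_option linter.all false

open MeasureTheory Set

namespace Vale.Agent.N243L

open Vale.Agent.P243

/-- A thin layer above a hyperbolic paraboloid. -/
theorem layer (c : ℝ) {r k l u : ℝ} (hr : 0 < r) (hr1 : r ≤ 1) (hk : 0 < k) (hl : 0 < l)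
    (hl1 : l ≤ 1 / 2) (hu : 0 < u) {ε : ℝ} (hε : 0 < ε) :
    Cov (fun X Y Z => ∃ P Q D : ℝ, |P| ≤ 1 / r ∧ X = ((1 + r) * P + (1 - r) * Q) / 2 ∧
      |Q| ≤ 1 / r ∧ Y = ((1 - r) * P + (1 + r) * Q) / 2 ∧ Z = c + k * P * Q + D ∧ 0 ≤ D ∧
      (D = 0 ∨ D ≤ k * l * (2 * u ^ 2 - P ^ 2 - Q ^ 2)))
      (2 * r / (1 + r) * (k * l * u ^ 3) * (2 + 14 * l) / 3 + ε) := by
  obtain ⟨n, hn, hn1⟩ : ∃ n : ℝ, n = 1 + r + l * (1 - r) ∧ 1 + r ≤ n :=
    ⟨_, rfl, by nlinarith⟩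
  have hn0 : 0 < n := by linarith
  have hε' : 0 < ε / 3 := by positivity
  have h0 := Cov.fam ((1 - r) / (1 + r)) ((r + 1) / (2 * r)) ((r - 1) / (2 * r)) c
    (γ := 2 * r / (1 + r)) (k := k) (A := 0) (B := 0) (U₁ := 1 / r) (M := 1 / r)
    (by positivity) hk.le le_rfl (by positivity) (by positivity) (by simp) hε'
  have h1 := Cov.fam ((1 - r) / (1 + r)) ((r + 1) / (2 * r)) ((r - 1) / (2 * r)) c
    (γ := 2 * r / (1 + r)) (k := k) (A := k * l * u ^ 2) (B := k * l) (U₁ := u) (M := 1 / r)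
    (by positivity) hk.le (by positivity) hu (by positivity) le_rfl hε'
  have h2 := (Cov.fam ((1 - r + l * (1 + r)) / n) ((r + 1) / (2 * r)) ((r - 1) / (2 * r))
    (c + k * l * u ^ 2) (γ := 2 * r / n) (k := k) (A := k * l * (u * (1 + 2 * l)) ^ 2)
    (B := k * l) (U₁ := u * (1 + 2 * l)) (M := 1 / r) (by positivity) hk.le (by positivity)
    (by positivity) (by positivity) le_rfl hε').swap
  refine ((h0.or h1).or h2).mono ?_ ?_
  · rintro X Y Z ⟨P, Q, D, hP, rfl, hQ, rfl, rfl, h3, h4⟩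
    have e1 : (r + 1) / (2 * r) * (((1 + r) * P + (1 - r) * Q) / 2) +
        (r - 1) / (2 * r) * (((1 - r) * P + (1 + r) * Q) / 2) = P := by
      field_simp
      ring
    have e2 : (r + 1) / (2 * r) * (((1 - r) * P + (1 + r) * Q) / 2) +
        (r - 1) / (2 * r) * (((1 + r) * P + (1 - r) * Q) / 2) = Q := by
      field_simp
      ring
    have e3 : ((1 - r) * P + (1 + r) * Q) / 2 - (1 - r) / (1 + r) *
        (((1 + r) * P + (1 - r) * Q) / 2) = 2 * r / (1 + r) * Q := by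
      field_simp
      ring
    have hkl : 0 < k * l := mul_pos hk hl
    rcases h4 with h4 | h4
    · refine Or.inl (Or.inl ⟨Q, (abs_le.1 hQ).1, (abs_le.1 hQ).2, e3, by rwa [e1], ?_, ?_⟩) <;>
        rw [e1] <;> linarith
    rcases le_total D (k * l * u ^ 2 - k * l * Q ^ 2) with h5 | h5
    · have h6 : Q ^ 2 ≤ u ^ 2 := le_of_mul_le_mul_left (by linarith) hkl
      obtain ⟨q1, q2⟩ := abs_le.1 (abs_le_of_sq_le_sq h6 hu.le)
      refine Or.inl (Or.inr ⟨Q, q1, q2, e3, by rwa [e1], ?_, ?_⟩) <;> rw [e1] <;> linarith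
    · have k3 : k * (P - l * Q) * Q = k * P * Q - k * l * Q ^ 2 := by ring
      have k4 : 0 ≤ 2 * u ^ 2 - P ^ 2 - Q ^ 2 :=
        le_of_mul_le_mul_left (by rw [mul_zero]; linarith) hkl
      have k5 : l * (-(P * Q)) ≤ l * u ^ 2 :=
        mul_le_mul_of_nonneg_left (by nlinarith [sq_nonneg (P + Q)]) hl.le
      have k6 : l ^ 2 * Q ^ 2 ≤ l ^ 2 * (2 * u ^ 2) :=
        mul_le_mul_of_nonneg_left (by nlinarith [sq_nonneg P]) (sq_nonneg l)
      have k7 : u ^ 2 - P ^ 2 ≤ (u * (1 + 2 * l)) ^ 2 - (P - l * Q) ^ 2 := by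
        nlinarith [mul_pos hl (pow_pos hu 2), mul_pos (pow_pos hl 2) (pow_pos hu 2)]
      have k8 := mul_le_mul_of_nonneg_left k7 hkl.le
      have k9 : (P - l * Q) ^ 2 ≤ (u * (1 + 2 * l)) ^ 2 :=
        le_of_mul_le_mul_left (by linarith) hkl
      obtain ⟨q1, q2⟩ := abs_le.1 (abs_le_of_sq_le_sq k9 (by positivity))
      refine Or.inr ⟨P - l * Q, q1, q2, ?_, by rwa [e2], ?_, ?_⟩
      · have hn' : n ≠ 0 := hn0.ne'
        field_simp
        rw [hn]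
        ring
      · rw [e2, k3]
        linarith
      · rw [e2, k3]
        linarith
  · have h3 : 2 * r / n ≤ 2 * r / (1 + r) :=
      div_le_div_of_nonneg_left (by positivity) (by positivity) hn1
    have h4 : (1 + 2 * l) ^ 3 ≤ 1 + 14 * l := by
      nlinarith [mul_le_mul_of_nonneg_left hl1 hl.le,
        mul_le_mul_of_nonneg_left hl1 (sq_nonneg l)]
    have h5 : 2 * r / n * (k * l * u ^ 3 * (1 + 2 * l) ^ 3)
        ≤ 2 * r / (1 + r) * (k * l * u ^ 3 * (1 + 14 * l)) :=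
      mul_le_mul h3 (mul_le_mul_of_nonneg_left h4 (by positivity)) (by positivity)
        (by positivity)
    linarith

/-- The paraboloids. -/
noncomputable def par (κ : ℝ) (c : ℝ → ℝ) (ρ X Y : ℝ) : ℝ :=
  c ρ + κ * ρ * ((X + Y) / 2) ^ 2 - κ / ρ * ((X - Y) / 2) ^ 2

/-- The region swept while the parameter decreases from `b` to `a`. -/
def Swept (κ : ℝ) (c : ℝ → ℝ) (a b X Y Z : ℝ) : Prop :=
  |X| ≤ 1 ∧ |Y| ≤ 1 ∧ par κ c b X Y ≤ Z ∧ ∃ ρ, a ≤ ρ ∧ ρ ≤ b ∧ 0 < ρ ∧ Z ≤ par κ c ρ X Y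

theorem sweep {κ : ℝ} (hκ : 0 < κ) (c u G : ℝ → ℝ) {a b : ℝ} (C : ℝ) (ha : 0 ≤ a) (hab : a < b)
    (hb : b ≤ 1) (hu : ∀ s, a ≤ s → s ≤ b → 0 < u s ∧ κ * u s ^ 3 ≤ C)
    (hc : ∀ s ρ r, a ≤ s → s ≤ ρ → 0 < ρ → ρ ≤ r → r ≤ b → c ρ - c r ≤ (r - ρ) * (κ * u s ^ 2))
    (hG : ∀ s r, a ≤ s → s < r → r ≤ b →
      2 / 3 * (r / (1 + r)) * (κ * u s ^ 3) * (r - s) ≤ G r - G s + C * (r - s) ^ 2)
    {ε : ℝ} (hε : 0 < ε) : Cov (Swept κ c a b) (G b - G a + ε) := by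
  refine Cov.glue (Swept κ c) ?_ G (4 * C + 1) hab (fun s δ h0 hδ h1 => ?_) hε
  · rintro s t w h8 X Y Z ⟨hX, hY, h1, ρ, h2, h3, h4, h5⟩
    rcases le_total ρ t with h6 | h6
    · rcases le_total (par κ c t X Y) Z with h7 | h7
      · exact Or.inl ⟨hX, hY, h7, ρ, h2, h6, h4, h5⟩
      · exact Or.inr ⟨hX, hY, h1, t, le_rfl, h8, h4.trans_le h6, h7⟩
    · exact Or.inr ⟨hX, hY, h1, ρ, h6, h3, h4, h5⟩
  obtain ⟨r, hr⟩ : ∃ r, r = s + δ := ⟨_, rfl⟩
  rw [← hr] at h1 ⊢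
  have hr0 : 0 < r := by linarith
  obtain ⟨u0, u1⟩ := hu s h0 (by linarith)
  have hkl : κ * r * (δ / (2 * r)) = κ * δ / 2 := by field_simp
  refine (layer (c r) (k := κ * r) (l := δ / (2 * r)) hr0 (h1.trans hb) (by positivity)
    (by positivity) (by rw [div_le_iff₀ (by positivity)]; linarith) u0 (pow_pos hδ 2)).mono ?_ ?_
  · rintro X Y Z ⟨hX, hY, h2, ρ, h3, h4, h5, h6⟩
    obtain ⟨x1, x2⟩ := abs_le.1 hX
    obtain ⟨y1, y2⟩ := abs_le.1 hY
    have hr1 : 0 ≤ 1 - r := by linarith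
    have b1 : ∀ X Y : ℝ, -1 ≤ X → X ≤ 1 → -1 ≤ Y → Y ≤ 1 →
        |(X + Y) / 2 + (X - Y) / 2 / r| ≤ 1 / r := by
      intro X Y x1 x2 y1 y2
      have : (X + Y) / 2 + (X - Y) / 2 / r = (((1 + r) * X - (1 - r) * Y) / 2) / r := by
        field_simp
        ring
      rw [this, abs_div, abs_of_pos hr0]
      refine div_le_div_of_nonneg_right (abs_le.2 ⟨?_, ?_⟩) hr0.le <;> nlinarith
    refine ⟨(X + Y) / 2 + (X - Y) / 2 / r, (Y + X) / 2 + (Y - X) / 2 / r, Z - par κ c r X Y,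
      b1 X Y x1 x2 y1 y2, ?_, b1 Y X y1 y2 x1 x2, ?_, ?_, by linarith, ?_⟩
    · field_simp
      ring
    · field_simp
      ring
    · unfold par
      field_simp
      ring
    · obtain ⟨m, hm⟩ : ∃ m, m = (X + Y) / 2 := ⟨_, rfl⟩
      obtain ⟨d, hd⟩ : ∃ d, d = (X - Y) / 2 := ⟨_, rfl⟩
      have e1 : κ * r * (δ / (2 * r)) * (2 * u s ^ 2 - ((X + Y) / 2 + (X - Y) / 2 / r) ^ 2 -
          ((Y + X) / 2 + (Y - X) / 2 / r) ^ 2) = δ * (κ * (u s ^ 2 - m ^ 2 - d ^ 2 / r / r)) := by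
        rw [hm, hd]
        field_simp
        ring
      have e2 : par κ c ρ X Y - par κ c r X Y
          = c ρ - c r - (r - ρ) * (κ * (m ^ 2 + d ^ 2 / r / ρ)) := by
        unfold par
        rw [hm, hd]
        field_simp
        ring
      have e3 : d ^ 2 / r / r ≤ d ^ 2 / r / ρ :=
        div_le_div_of_nonneg_left (by positivity) h5 h4
      have e4 : (r - ρ) * (κ * (m ^ 2 + d ^ 2 / r / r)) ≤ (r - ρ) * (κ * (m ^ 2 + d ^ 2 / r / ρ)) :=
        mul_le_mul_of_nonneg_left (mul_le_mul_of_nonneg_left (by linarith) hκ.le) (by linarith)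
      have e5 := hc s ρ r h0 h3 h5 h4 h1
      have e6 : Z - par κ c r X Y ≤ (r - ρ) * (κ * (u s ^ 2 - m ^ 2 - d ^ 2 / r / r)) := by
        linarith
      rw [e1]
      rcases le_total 0 (κ * (u s ^ 2 - m ^ 2 - d ^ 2 / r / r)) with h7 | h7
      · exact Or.inr (e6.trans (mul_le_mul_of_nonneg_right (by linarith) h7))
      · have := mul_nonpos_of_nonneg_of_nonpos (show 0 ≤ r - ρ by linarith) h7
        exact Or.inl (by linarith)
  · have e1 := hG s r h0 (by linarith) h1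
    rw [show r - s = δ by linarith] at e1
    have e2 : 2 * r / (1 + r) * (κ * r * (δ / (2 * r)) * u s ^ 3) * (2 + 14 * (δ / (2 * r))) / 3
        = 2 / 3 * (r / (1 + r)) * (κ * u s ^ 3) * δ + 7 / 3 * (κ * u s ^ 3 * δ ^ 2 / (1 + r)) := by
      field_simp
      ring
    have e3 : κ * u s ^ 3 * δ ^ 2 / (1 + r) ≤ κ * u s ^ 3 * δ ^ 2 :=
      div_le_self (by positivity) (by linarith)
    have e4 := mul_le_mul_of_nonneg_right u1 (sq_nonneg δ)
    have e5 : 0 ≤ κ * u s ^ 3 * δ ^ 2 := by positivity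
    rw [e2]
    linarith

theorem log_sub_le {x y : ℝ} (hx : 0 < x) (hy : 0 < y) : Real.log y - Real.log x ≤ (y - x) / x := by
  rw [← Real.log_div hy.ne' hx.ne']
  refine (Real.log_le_sub_one_of_pos (by positivity)).trans (le_of_eq ?_)
  field_simp

/-- The second phase: the boundary rulings lie in the two upper faces. -/
theorem phase2 {κ t : ℝ} (hκ : 0 < κ) (ht : 0 < t) (ht1 : t ≤ 1) {ε : ℝ} (hε : 0 < ε) :
    Cov (Swept κ (fun ρ => 1 - ρ / κ) 0 t) (2 / 3 / κ ^ 2 * (t - Real.log (1 + t)) + ε) := by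
  refine (sweep hκ _ (fun _ => 1 / κ) (fun ρ => 2 / 3 / κ ^ 2 * (ρ - Real.log (1 + ρ)))
    (1 / κ ^ 2) le_rfl ht ht1 (fun _ _ _ => ⟨by positivity, le_of_eq (by field_simp)⟩)
    (fun s ρ r _ _ _ _ _ => le_of_eq (by field_simp; ring)) (fun s r h0 h1 h2 => ?_) hε).mono
    (fun _ _ _ h => h) (le_of_eq (by simp))
  have a1 := log_sub_le (x := 1 + s) (y := 1 + r) (by linarith) (by linarith)
  have a2 : r / (1 + r) * (r - s) = (r - s - (1 + r - (1 + s)) / (1 + s)) +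
      (r - s) ^ 2 / ((1 + s) * (1 + r)) := by
    have : 0 < 1 + r := by linarith
    field_simp
    ring
  have a3 : (r - s) ^ 2 / ((1 + s) * (1 + r)) ≤ (r - s) ^ 2 :=
    div_le_self (sq_nonneg _) (by nlinarith)
  have a4 : 2 / 3 * (r / (1 + r) * (r - s)) ≤ 2 / 3 * (r - Real.log (1 + r)) -
      2 / 3 * (s - Real.log (1 + s)) + (r - s) ^ 2 := by
    nlinarith [sq_nonneg (r - s)]
  have a5 := mul_le_mul_of_nonneg_left a4 (show 0 ≤ 1 / κ ^ 2 by positivity)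
  have a6 : κ * (1 / κ) ^ 3 = 1 / κ ^ 2 := by field_simp
  rw [a6]
  refine le_trans (le_of_eq ?_) (a5.trans (le_of_eq ?_)) <;> ring

/-- The height function of the first phase. -/
noncomputable def hgt (ρ : ℝ) : ℝ := 1 / ρ - ρ - 2 * Real.log ρ

theorem hgt_le {s ρ r : ℝ} (hs : 0 < s) (h1 : s ≤ ρ) (h2 : ρ ≤ r) :
    hgt ρ - hgt r ≤ (r - ρ) * (1 + 1 / s) ^ 2 := by
  have h3 : 0 < ρ := by linarith
  have h4 : 0 < r := by linarith
  have a1 := log_sub_le h3 h4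
  have a2 : 1 / ρ ≤ 1 / s := one_div_le_one_div_of_le hs h1
  have a3 : 1 / r ≤ 1 / s := one_div_le_one_div_of_le hs (by linarith)
  have a4 : 1 / ρ * (1 / r) ≤ 1 / s * (1 / s) := mul_le_mul a2 a3 (by positivity) (by positivity)
  have a5 : 1 / ρ - 1 / r = (r - ρ) * (1 / ρ * (1 / r)) := by field_simp
  have a6 := mul_le_mul_of_nonneg_left a4 (sub_nonneg.2 h2)
  have a7 := mul_le_mul_of_nonneg_left a2 (sub_nonneg.2 h2)
  rw [div_eq_mul_one_div] at a1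
  unfold hgt
  linarith

theorem le_hgt {s r : ℝ} (hs : 0 < s) (h2 : s ≤ r) : (r - s) * (1 + 1 / r) ^ 2 ≤ hgt s - hgt r := by
  have h4 : 0 < r := by linarith
  have a1 := log_sub_le h4 hs
  have a3 : 1 / r ≤ 1 / s := one_div_le_one_div_of_le hs h2
  have a4 : 1 / r * (1 / r) ≤ 1 / s * (1 / r) := mul_le_mul_of_nonneg_right a3 (by positivity)
  have a5 : 1 / s - 1 / r = (r - s) * (1 / s * (1 / r)) := by field_simp
  have a6 := mul_le_mul_of_nonneg_left a4 (sub_nonneg.2 h2)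
  rw [div_eq_mul_one_div] at a1
  unfold hgt
  linarith

/-- The first phase. -/
theorem phase1 {κ μ t : ℝ} (hκ : 0 < κ) (hμ : 0 < μ) (ht : 0 < t) (ht1 : t < 1) {ε : ℝ}
    (hε : 0 < ε) :
    Cov (Swept κ (fun ρ => κ * μ ^ 2 * hgt ρ) t 1) (2 / 3 * (κ * μ ^ 3) * hgt t + ε) := by
  have hw : ∀ s, t ≤ s → 1 ≤ 1 + 1 / s ∧ 1 + 1 / s ≤ 1 + 1 / t := fun s hs =>
    ⟨by have : 0 < 1 / s := by have := ht.trans_le hs; positivity
        linarith, by have := one_div_le_one_div_of_le ht hs; linarith⟩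
  refine (sweep hκ _ (fun s => μ * (1 + 1 / s)) (fun ρ => -(2 / 3 * (κ * μ ^ 3) * hgt ρ))
    (κ * μ ^ 3 * (2 * (1 + 1 / t) ^ 4)) ht.le ht1 le_rfl (fun s h0 _ => ?_)
    (fun s ρ r h0 h1 _ h3 _ => ?_) (fun s r h0 h1 h2 => ?_) hε).mono
    (fun _ _ _ h => h) (le_of_eq (by simp [hgt]))
  · obtain ⟨a1, a2⟩ := hw s h0
    refine ⟨by positivity, ?_⟩
    rw [mul_pow, ← mul_assoc]
    refine mul_le_mul_of_nonneg_left ((pow_le_pow_left₀ (by linarith) a2 3).trans ?_)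
      (by positivity)
    have a3 : (1 + 1 / t) ^ 3 ≤ (1 + 1 / t) ^ 4 := pow_le_pow_right₀ (a1.trans a2) (by norm_num)
    have a4 : 0 ≤ (1 + 1 / t) ^ 4 := by positivity
    linarith
  · have a1 := mul_le_mul_of_nonneg_left (hgt_le (ht.trans_le h0) h1 h3)
      (show 0 ≤ κ * μ ^ 2 by positivity)
    linarith
  · have hs := ht.trans_le h0
    have hr := hs.trans h1
    obtain ⟨a1, a2⟩ := hw s h0
    obtain ⟨a3, a4⟩ := hw r (by linarith)
    have a5 := le_hgt hs h1.le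
    obtain ⟨x, hx⟩ : ∃ x, x = 1 + 1 / s := ⟨_, rfl⟩
    obtain ⟨y, hy⟩ : ∃ y, y = 1 + 1 / r := ⟨_, rfl⟩
    obtain ⟨w, hw⟩ : ∃ w, w = 1 + 1 / t := ⟨_, rfl⟩
    have b1 : r / (1 + r) = 1 / y := by rw [hy]; field_simp; ring
    have b2 : x - y ≤ w ^ 2 * (r - s) := by
      have c1 : x - y = 1 / s * (1 / r) * (r - s) := by rw [hx, hy]; field_simp; ring
      rw [c1, hw, sq]
      exact mul_le_mul_of_nonneg_right (mul_le_mul (by linarith) (by linarith) (by positivity)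
        (by positivity)) (by linarith)
    rw [← hx, ← hw] at a2
    rw [← hy, ← hw] at a4
    rw [← hy] at a3 a5
    rw [← hx] at a1
    have b3 : 1 / y * x ^ 3 ≤ y ^ 2 + 3 * w ^ 4 * (r - s) := by
      rw [one_div, inv_mul_le_iff₀ (by linarith)]
      have c1 : x ^ 2 + x * y + y ^ 2 ≤ 3 * w ^ 2 := by nlinarith
      have c2 : (x - y) * (x ^ 2 + x * y + y ^ 2) ≤ w ^ 2 * (r - s) * (3 * w ^ 2) :=
        mul_le_mul b2 c1 (by positivity) (mul_nonneg (sq_nonneg w) (by linarith))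
      have c3 : 0 ≤ 3 * w ^ 4 * (r - s) := mul_nonneg (by positivity) (by linarith)
      nlinarith
    have b4 := mul_le_mul_of_nonneg_right b3 (show 0 ≤ r - s by linarith)
    have b5 : 1 / y * x ^ 3 * (r - s) ≤ hgt s - hgt r + 3 * w ^ 4 * (r - s) ^ 2 := by linarith
    have b6 := mul_le_mul_of_nonneg_left b5 (show 0 ≤ 2 / 3 * (κ * μ ^ 3) by positivity)
    rw [b1, ← hx, ← hw]
    linarith

end Vale.Agent.N243L
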