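import Vale.Agent.N243L.Defs
import Vale.Agent.N243L.Layer
import Mathlib.Analysis.Complex.ExponentialBounds

/-! The covering of the whole tetrahedron and the transfer to the terms of `Defs`. -/

set_option linter.all false

open MeasureTheory Set

namespace Vale.Agent.N243L

section
open Vale.Agent.P243

theorem kap_pos {t : ℝ} (ht : 0 < t) (ht1 : t < 1) : 0 < kap t := by
  have h1 := mul_nonpos_of_nonneg_of_nonpos ht.le (Real.log_nonpos ht.le ht1.le)
  have h2 : 0 < 1 + t - t * Real.log t := by linarith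
  unfold kap
  positivity

theorem kap_le {t : ℝ} (ht : 0 < t) : kap t ≤ 1 := by
  have h1 := log_sub_le (x := t ^ 2) (y := 1) (by positivity) one_pos
  rw [Real.log_one, Real.log_pow, le_div_iff₀ (by positivity)] at h1
  unfold kap
  rw [div_le_one (by positivity)]
  push_cast at h1
  linarith

theorem upper {t : ℝ} (ht : 0 < t) (ht1 : t < 1) {ε : ℝ} (hε : 0 < ε) :
    Cov (fun X Y Z => |X| ≤ 1 ∧ |Y| ≤ 1 ∧ -1 ≤ Z ∧ Z ≤ 1 - |X - Y| ∧ kap t * (X * Y) ≤ Z)
      (bound t / 2 + ε) := by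
  have hκ := kap_pos ht ht1
  have hκ1 := kap_le ht
  obtain ⟨μ, hμ⟩ : ∃ μ, μ = t / (kap t * (1 + t)) := ⟨_, rfl⟩
  have hμ0 : 0 < μ := by rw [hμ]; positivity
  have e0 : hgt t = (kap t - t) * (1 + t) ^ 2 / t ^ 2 := by
    unfold hgt kap
    field_simp
    ring
  have e1 : kap t * μ ^ 2 * hgt t = 1 - t / kap t := by
    rw [e0, hμ]
    field_simp
  have e2 : kap t * μ ^ 2 * (1 + 1 / t) ^ 2 = 1 / kap t := by
    rw [hμ]
    field_simp
    ring
  have h1 := phase1 hκ hμ0 ht ht1 (half_pos hε)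
  have h2 := phase2 hκ ht ht1.le (half_pos hε)
  have h3 := Cov.tube 1 0 0 0 0 (-1) 2 le_rfl (by norm_num)
  refine ((h1.or h2).or h3).mono ?_ (le_of_eq ?_)
  · rintro X Y Z ⟨hX, hY, k0, k1, k2⟩
    rcases eq_or_ne (X - Y) 0 with hd | hd
    · have := abs_nonneg (X - Y)
      exact Or.inr ⟨by linarith, by linarith, by linarith, by linarith⟩
    refine Or.inl ?_
    obtain ⟨d, hd', hd0⟩ : ∃ d, d = |X - Y| / 2 ∧ 0 < d := ⟨_, rfl, half_pos (abs_pos.2 hd)⟩
    have a1 : d ≤ 1 := by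
      have := abs_sub X Y
      linarith
    have a2 : kap t * d ≤ 1 := mul_le_one₀ hκ1 hd0.le a1
    have a3 : ∀ c : ℝ → ℝ, 1 - d ≤ c (kap t * d) → Z ≤ par (kap t) c (kap t * d) X Y := by
      intro c hc
      have b1 : kap t / (kap t * d) * ((X - Y) / 2) ^ 2 = d := by
        rw [div_pow, ← sq_abs (X - Y), ← div_pow, ← hd']
        field_simp
      have b2 : 0 ≤ kap t * (kap t * d) * ((X + Y) / 2) ^ 2 := by positivity
      unfold par
      linarith
    have a4 : par (kap t) (fun ρ => kap t * μ ^ 2 * hgt ρ) 1 X Y ≤ Z := by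
      refine le_trans (le_of_eq ?_) k2
      simp only [par, hgt, Real.log_one]
      ring
    rcases le_total t (kap t * d) with h4 | h4
    · refine Or.inl ⟨hX, hY, a4, _, h4, a2, by positivity, a3 _ ?_⟩
      have b1 := mul_le_mul_of_nonneg_left (hgt_le ht le_rfl h4)
        (show 0 ≤ kap t * μ ^ 2 by positivity)
      have b2 : kap t * μ ^ 2 * ((kap t * d - t) * (1 + 1 / t) ^ 2) = d - t / kap t := by
        rw [mul_left_comm, e2]
        field_simp
      linarith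
    rcases le_total Z (par (kap t) (fun ρ => kap t * μ ^ 2 * hgt ρ) t X Y) with h5 | h5
    · exact Or.inl ⟨hX, hY, a4, t, le_rfl, ht1.le, ht, h5⟩
    · refine Or.inr ⟨hX, hY, ?_, _, by positivity, h4, by positivity, a3 _ (le_of_eq ?_)⟩
      · simpa only [par, e1] using h5
      · field_simp
  · have e3 : 2 / 3 * (kap t * μ ^ 3) * hgt t = 2 / 3 * μ * (1 - t / kap t) := by
      rw [← e1]
      ring
    rw [e3, hμ]
    unfold bound
    field_simp
    ring

theorem coverable_K0' {t : ℝ} (ht : 0 < t) (ht1 : t < 1) {ε : ℝ} (hε : 0 < ε) :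
    Coverable K0 (bound t + ε) := by
  have h := upper ht ht1 (half_pos hε)
  refine Coverable.mono (h.or h.flip) ?_ (by linarith)
  rintro v ⟨h0, h1, h2, h3⟩
  have a1 : |cX v| ≤ 1 := abs_le.2 ⟨by unfold cX; linarith, by unfold cX; linarith⟩
  have a2 : |cY v| ≤ 1 := abs_le.2 ⟨by unfold cY; linarith, by unfold cY; linarith⟩
  have a3 : |cX v - cY v| ≤ 1 - cZ v :=
    abs_le.2 ⟨by unfold cX cY cZ; linarith, by unfold cX cY cZ; linarith⟩
  have a4 : |-cX v - cY v| ≤ 1 + cZ v :=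
    abs_le.2 ⟨by unfold cX cY cZ; linarith, by unfold cX cY cZ; linarith⟩
  have a5 := abs_nonneg (cX v - cY v)
  have a6 := abs_nonneg (-cX v - cY v)
  rcases le_total (kap t * (cX v * cY v)) (cZ v) with h4 | h4
  · exact Or.inl ⟨a1, a2, by linarith, by linarith, h4⟩
  · exact Or.inr ⟨by rwa [abs_neg], a2, by linarith, by linarith, by linarith⟩

end

open Vale.Agent.N243
open Vale.Agent.P243 (K0)

theorem tet_up {v : Fin 4 → E3} (hv : AffineIndependent ℝ v) {r : ℝ}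
    (h : Vale.Agent.P243.Coverable K0 r) :
    ∃ (m : ℕ) (u : Fin m → E3) (B : ∀ i, Set (ℝ ∙ u i)ᗮ), Covers (convexHull ℝ (range v)) u B ∧
      ∑ i, area (B i) / shadow (convexHull ℝ (range v)) (u i) ≤ r := by
  obtain ⟨L, c, -, hK⟩ := exists_L hv
  obtain ⟨n, φ, R, h1, h2, h3, h4, h5, h6⟩ := h.exists_fin
  set ψ : Fin n → (E3 →L[ℝ] ℝ × ℝ) := fun i => (φ i).comp (gl.comp (L.symm : E3 →L[ℝ] E3))
    with hψ
  have hkey : ∀ i x, ψ i (L x + c) + (φ i g0 - ψ i c) = φ i (gl x + g0) := by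
    intro i x
    have : ψ i (L x) = φ i (gl x) := by
      change φ i (gl (L.symm (L x))) = _
      rw [L.symm_apply_apply]
    rw [map_add, map_add, this]
    abel
  obtain ⟨C, hC⟩ := Vale.Agent.P243.exists_covering_of_maps (K := convexHull ℝ (range v)) ψ
    (fun i => (fun y => y + (φ i g0 - ψ i c)) ⁻¹' R i)
    (fun i y => by
      obtain ⟨k, hk⟩ := h1 i y
      obtain ⟨x, hx, -⟩ := gl_surj (k + g0)
      refine ⟨L x, ?_⟩
      change φ i (gl (L.symm (L x))) = _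
      rw [L.symm_apply_apply, add_right_cancel hx, hk])
    (fun i => (measurable_add_const _) (h2 i))
    (fun i => by rw [measure_preimage_add_right]; exact h3 i)
    (by
      rw [hK]
      rintro _ ⟨x, hx, rfl⟩
      obtain ⟨i, hi⟩ := mem_iUnion.1 (h5 (K0_eq ▸ ⟨x, hx, rfl⟩ : gl x + g0 ∈ K0))
      refine mem_iUnion.2 ⟨i, ?_⟩
      change ψ i (L x + c) + (φ i g0 - ψ i c) ∈ R i
      rw [hkey]
      exact hi)
  refine ⟨C.m, C.axis, C.base, covers_of
    (fun i => ⟨C.norm_axis i, C.base_measurable i, C.base_finite i⟩)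
    (fun x hx => mem_iUnion.1 (C.covers hx)), ?_⟩
  change C.relArea ≤ _
  rw [hC]
  refine le_trans (Finset.sum_le_sum fun i _ => ?_) h6
  have h7 : ψ i '' convexHull ℝ (range v) = (fun y => y + (φ i g0 - ψ i c)) ⁻¹' (φ i '' K0) := by
    rw [hK, K0_eq]
    ext y
    constructor
    · rintro ⟨_, ⟨x, hx, rfl⟩, rfl⟩
      exact ⟨_, ⟨x, hx, rfl⟩, (hkey i x).symm⟩
    · rintro ⟨_, ⟨x, hx, rfl⟩, hy⟩
      exact ⟨_, ⟨x, hx, rfl⟩, add_right_cancel ((hkey i x).trans hy)⟩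
  rw [h7, measure_preimage_add_right, measure_preimage_add_right]
  have h8 := h4 i
  have h9 : 0 ≤ (volume (R i)).toReal := ENNReal.toReal_nonneg
  rw [div_le_iff₀ (by linarith only [h8])]
  nlinarith only [h8, h9]

theorem bound_lt : bound (5 / 12) < 0.39811 := by
  have l2 := Real.log_two_gt_d9
  have l2' := Real.log_two_lt_d9
  have l3 := Real.log_three_gt_d9
  have l3' := Real.log_three_lt_d9
  have l5 := Real.log_five_gt_d9
  have l5' := Real.log_five_lt_d9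
  have a1 : Real.log (5 / 12) = Real.log 5 - (2 * Real.log 2 + Real.log 3) := by
    rw [Real.log_div (by norm_num) (by norm_num), show (12 : ℝ) = 2 ^ 2 * 3 by norm_num,
      Real.log_mul (by norm_num) (by norm_num), Real.log_pow]
    norm_num
  have a2 : Real.log (1 + 5 / 12) = 2 * Real.log 3 + Real.log 5 - 5 * Real.log 2 +
      Real.log (1 + 1 / 135) := by
    rw [show (1 + 5 / 12 : ℝ) = 3 ^ 2 * 5 / 2 ^ 5 * (1 + 1 / 135) by norm_num,
      Real.log_mul (by norm_num) (by norm_num), Real.log_div (by norm_num) (by norm_num),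
      Real.log_mul (by norm_num) (by norm_num), Real.log_pow, Real.log_pow]
    norm_num
  have a3 := Real.le_log_one_add_of_nonneg (x := 1 / 135) (by norm_num)
  have a4 : 0.7397004 ≤ kap (5 / 12) ∧ kap (5 / 12) ≤ 0.7397005 := by
    have : kap (5 / 12) = 10 / 17 - 50 / 289 * Real.log (5 / 12) := by
      unfold kap
      ring
    rw [this, a1]
    norm_num at l2 l2' l3 l3' l5 l5' ⊢
    constructor <;> linarith
  have a5 : 0 < kap (5 / 12) := kap_pos (by norm_num) (by norm_num)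
  unfold bound
  rw [a2, div_mul_eq_mul_div, div_lt_iff₀ (by positivity)]
  obtain ⟨a6, a7⟩ := a4
  generalize kap (5 / 12) = k at a6 a7
  norm_num at l2 l2' l3 l3' l5 l5' a3 a6 a7 ⊢
  nlinarith

variable {V : Type} [NormedAddCommGroup V] [InnerProductSpace ℝ V] [FiniteDimensional ℝ V]
  [MeasurableSpace V] [BorelSpace V] (hV : Module.finrank ℝ V = 3)
include hV

theorem tet_up' {v : Fin 4 → V} {T : Set V} (h : IsTet v T) {t : ℝ} (ht : t ∈ Ioo (0 : ℝ) 1)
    {ε : ℝ} (hε : 0 < ε) :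
    ∃ (m : ℕ) (u : Fin m → V) (B : ∀ i, Base (u i)), Covers T u B ∧
      ∑ i, area (B i) / shadow T (u i) ≤ bound t + ε := by
  obtain ⟨e⟩ := exists_iso hV
  obtain ⟨h1, h2⟩ := h.map e
  obtain ⟨m, u, B, h3, h5⟩ := tet_up h1 (coverable_K0' ht.1 ht.2 hε)
  rw [← h2] at h3 h5
  obtain ⟨B', h6, -, h7⟩ := h3.map e.symm
  rw [img_symm] at h6 h7
  exact ⟨m, _, B', h6, h7.trans_le h5⟩

theorem lower' : ∃ δ > 0, ∀ (K : Set V) (m : ℕ) (u : Fin m → V) (B : ∀ i, Base (u i)),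
    IsBody K → Covers K u B → 1 / 3 + δ ≤ ∑ i, area (B i) / shadow K (u i) := by
  obtain ⟨δ, hδ, h⟩ := Vale.Agent.P243E.lowerBound
  obtain ⟨e⟩ := exists_iso hV
  refine ⟨δ, hδ, fun K m u B hK hc => ?_⟩
  obtain ⟨B', h1, -, h2⟩ := hc.map e
  rw [← h2]
  exact (h _ (hK.map e) ⟨m, _, B', fun i => (h1.1 i).1, fun i => (h1.1 i).2.1,
    fun i => (h1.1 i).2.2, fun x hx => mem_iUnion.2 (h1.2 x hx)⟩).1

theorem r3_le {K : Set V} {m : ℕ} {u : Fin m → V} {B : ∀ i, Base (u i)} (hK : IsBody K)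
    (hc : Covers K u B) : r3 V ≤ ∑ i, area (B i) / shadow K (u i) := by
  obtain ⟨δ, -, h⟩ := lower' hV
  refine csInf_le ⟨1 / 3 + δ, ?_⟩ ⟨K, m, u, B, hK, hc, rfl⟩
  rintro _ ⟨K, m, u, B, hK, hc, rfl⟩
  exact h K m u B hK hc

theorem r3_le_total {K : Set V} {m : ℕ} {u : Fin m → V} {B : ∀ i, Base (u i)} (hK : IsBody K)
    (hc : Covers K u B) : r3 V ≤ (∑ i, area (B i)) / Amin K := by
  obtain ⟨h1, h2⟩ := wellDef' hV hK
  rw [Finset.sum_div]
  exact (r3_le hV hK hc).trans (Finset.sum_le_sum fun i _ =>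
    div_le_div_of_nonneg_left ENNReal.toReal_nonneg h2 (h1.2 ⟨u i, (hc.1 i).1, rfl⟩))

theorem third_lt : 1 / 3 < r3 V := by
  obtain ⟨δ, hδ, h⟩ := lower' hV
  obtain ⟨K, hK, m, u, B, hc, -⟩ := counter' hV
  refine lt_of_lt_of_le (lt_add_of_pos_right _ hδ) (le_csInf ⟨_, K, m, u, B, hK, hc, rfl⟩ ?_)
  rintro _ ⟨K, m, u, B, hK, hc, rfl⟩
  exact h K m u B hK hc

theorem r3_le_bound {t : ℝ} (ht : t ∈ Ioo (0 : ℝ) 1) : r3 V ≤ bound t := by
  obtain ⟨b⟩ := AffineBasis.exists_affineBasis_of_finiteDimensional (ι := Fin 4) (k := ℝ)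
    (V := V) (P := V) (by simp [hV])
  have hT : IsTet b (convexHull ℝ (range b)) := ⟨b.ind, rfl⟩
  refine le_of_forall_pos_le_add fun ε hε => ?_
  obtain ⟨m, u, B, h1, h2⟩ := tet_up' hV hT ht hε
  exact (r3_le hV (tet_body' hV hT) h1).trans h2

theorem r3_le_c3 : r3 V ≤ c3 V := by
  obtain ⟨K, hK, m, u, B, hc, -⟩ := counter' hV
  refine le_csInf ⟨_, K, m, u, B, hK, hc, rfl⟩ ?_
  rintro _ ⟨K, m, u, B, hK, hc, rfl⟩
  exact r3_le_total hV hK hc

theorem c3_le : c3 V ≤ 1 / 2 - 1 / 5000 := by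
  obtain ⟨e⟩ := exists_iso hV
  obtain ⟨hK, C, -, h1, -⟩ := Vale.Agent.P243E.coveredWithin
  have hK : IsBody Vale.Agent.P243E.tetra := hK
  have hc : Covers Vale.Agent.P243E.tetra C.u C.base :=
    ⟨fun i => ⟨C.unit i, C.measurable_base i, C.finite_area i⟩,
      fun x hx => mem_iUnion.1 (C.covers hx)⟩
  obtain ⟨B', h3, h4, -⟩ := hc.map e.symm
  unfold c3
  refine csInf_le_of_le ⟨r3 V, ?_⟩ ⟨_, _, _, B', hK.map e.symm, h3, rfl⟩ ?_
  · rintro _ ⟨K, m, u, B, hK, hc, rfl⟩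
    exact r3_le_total hV hK hc
  · rw [h4, Amin_map, div_le_iff₀ (wellDef hK).2]
    exact h1

end Vale.Agent.N243L
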