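import Vale.Agent.N243L.Arch
import Vale.Agent.N243.Gen

/-! The covering of the model regular tetrahedron, moved to every regular tetrahedron. -/

set_option linter.all false

open MeasureTheory Set
open scoped Pointwise RealInnerProductSpace

namespace Vale.Agent.N243L

open Vale.Agent.N243
open Vale.Agent.P243 (proj)
open Vale.Agent.P243.H344 (regT)

theorem hom_area {u : E3} (hu : ‖u‖ = 1) {σ : ℝ} (hσ : 0 ≤ σ) (p : (ℝ ∙ u)ᗮ) (A : Base u) :
    area ((fun y => σ • y + p) '' A : Base u) = σ ^ 2 * area A := by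
  have h1 : (fun y => σ • y + p) '' A = (fun y => y + p) '' (σ • A) := by
    rw [← image_smul, image_image]
  have h2 : Module.finrank ℝ (ℝ ∙ u)ᗮ = 2 :=
    rank_perp (by simp) (by rintro rfl; simp at hu)
  unfold area
  rw [h1, image_add_right, measure_preimage_add_right, Measure.addHaar_smul_of_nonneg _ hσ, h2,
    ENNReal.toReal_mul, ENNReal.toReal_ofReal (by positivity)]

theorem reg_hom {σ : ℝ} (hσ : 0 ≤ σ) (c : E3) :
    ∃ (m : ℕ) (u : Fin m → E3) (B : ∀ i, Base (u i)),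
      Covers ((fun x => σ • x + c) '' regT) u B ∧
      ∑ i, area (B i) ≤ (1 / 2 - 1 / 5000) * Amin ((fun x => σ • x + c) '' regT) := by
  obtain ⟨C, h1, h2⟩ := Vale.Agent.P243.H344.exists_covering_regT
  have hp : ∀ u x : E3, proj u (σ • x + c) = σ • proj u x + proj u c := fun u x => by
    rw [Vale.Agent.P243.proj_add, Vale.Agent.P243.proj_smul]
  refine ⟨C.m, C.axis, fun i => (fun y => σ • y + proj (C.axis i) c) '' C.base i,
    covers_of (fun i => ?_) ?_, ?_⟩
  · have h3 : IsCompact ((fun y => σ • y + proj (C.axis i) c) '' C.base i) :=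
      (h2 i).1.image (by fun_prop)
    exact ⟨C.norm_axis i, h3.measurableSet.nullMeasurableSet, h3.measure_lt_top.ne⟩
  · rintro _ ⟨x, hx, rfl⟩
    obtain ⟨i, hi⟩ := mem_iUnion.1 (C.covers hx)
    exact ⟨i, _, hi, (hp _ x).symm⟩
  · have h3 : σ ^ 2 * √8 ≤ Amin ((fun x => σ • x + c) '' regT) := by
      refine le_csInf ⟨_, EuclideanSpace.single 0 1, by simp, rfl⟩ ?_
      rintro _ ⟨u, hu, rfl⟩
      have h4 : shadow ((fun x => σ • x + c) '' regT) u =
          area ((fun y => σ • y + proj u c) '' (proj u '' regT) : Base u) := by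
        unfold shadow
        rw [image_image, image_image]
        exact congrArg (fun f => area (f '' regT : Base u)) (funext (hp u))
      rw [h4, hom_area hu hσ]
      exact mul_le_mul_of_nonneg_left (Vale.Agent.P243.H344.shadow_regT_ge hu) (sq_nonneg σ)
    simp only [hom_area (C.norm_axis _) hσ]
    rw [← Finset.mul_sum]
    have h4 := mul_le_mul_of_nonneg_left h1 (sq_nonneg σ)
    change σ ^ 2 * C.totalArea ≤ _
    linarith

theorem reg_up_E {v : Fin 4 → E3} {a : ℝ} (ha : ∀ j k, j ≠ k → ‖v j - v k‖ = a)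
    (hv : AffineIndependent ℝ v) :
    ∃ (m : ℕ) (u : Fin m → E3) (B : ∀ i, Base (u i)), Covers (convexHull ℝ (range v)) u B ∧
      ∑ i, area (B i) ≤ (1 / 2 - 1 / 5000) * Amin (convexHull ℝ (range v)) := by
  obtain ⟨L, c, hL, hK⟩ := exists_L hv
  have h0 := edge_pos ha hv
  have hs : 0 < a / √32 := by positivity
  have h1 : ∀ x, L x = (lf x.ofLp 1 / 8) • (v 1 - v 0) + (lf x.ofLp 2 / 8) • (v 2 - v 0) +
      (lf x.ofLp 3 / 8) • (v 3 - v 0) := by
    intro x
    have e1 := hL x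
    have e2 := hL 0
    rw [map_zero, zero_add] at e2
    rw [eq_sub_of_add_eq e1, e2, Fin.sum_univ_four, Fin.sum_univ_four]
    simp only [lam, lf0, lf1, lf2, lf3, WithLp.ofLp_zero, Pi.zero_apply]
    module
  have h2 : ∀ x, ‖L x‖ = a / √32 * ‖x‖ := by
    intro x
    refine (sq_eq_sq₀ (norm_nonneg _) (by positivity)).1 ?_
    rw [← real_inner_self_eq_norm_sq, h1, gram3 ha, mul_pow, div_pow, Real.sq_sqrt (by norm_num),
      EuclideanSpace.real_norm_sq_eq, Fin.sum_univ_three]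
    simp only [lf1, lf2, lf3]
    ring
  let f : E3 ≃ₗᵢ[ℝ] E3 :=
    { L.toLinearEquiv.trans (LinearEquiv.smulOfNeZero ℝ E3 (a / √32)⁻¹ (inv_ne_zero hs.ne')) with
      norm_map' := fun x => by
        change ‖(a / √32)⁻¹ • L x‖ = ‖x‖
        rw [norm_smul, h2, Real.norm_of_nonneg (by positivity), inv_mul_cancel_left₀ hs.ne'] }
  have hf : ∀ x, f ((2 * (a / √32)) • x + f.symm c) = L ((2 : ℝ) • x) + c := by
    intro x
    rw [map_add, f.apply_symm_apply, map_smul, map_smul]
    change (2 * (a / √32)) • (a / √32)⁻¹ • L x + c = _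
    rw [smul_smul, mul_inv_cancel_right₀ hs.ne']
  have h3 : convexHull ℝ (range v) =
      f '' ((fun x => (2 * (a / √32)) • x + f.symm c) '' regT) := by
    have hS : ∀ x : E3, (2 : ℝ) • x ∈ S ↔ x ∈ regT := by
      intro x
      rw [mem_S, forall4, Vale.Agent.P243.H344.mem_regT_iff, abs_le, abs_le]
      simp only [lam, lf0, lf1, lf2, lf3, WithLp.ofLp_smul, Pi.smul_apply, smul_eq_mul]
      constructor
      · rintro ⟨a0, a1, a2, a3⟩
        exact ⟨⟨by linarith, by linarith⟩, by linarith, by linarith⟩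
      · rintro ⟨⟨a0, a1⟩, a2, a3⟩
        exact ⟨by linarith, by linarith, by linarith, by linarith⟩
    rw [hK, image_image]
    simp only [hf]
    ext y
    constructor
    · rintro ⟨x, hx, rfl⟩
      have e : (2 : ℝ) • ((2 : ℝ)⁻¹ • x) = x := by rw [smul_smul]; norm_num
      exact ⟨(2 : ℝ)⁻¹ • x, (hS _).1 (by rwa [e]), by simp only [e]⟩
    · rintro ⟨x, hx, rfl⟩
      exact ⟨_, (hS x).2 hx, rfl⟩
  obtain ⟨m, u, B, h4, h5⟩ := reg_hom (σ := 2 * (a / √32)) (by positivity) (f.symm c)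
  obtain ⟨B', h6, h7, -⟩ := h4.map f
  rw [h3]
  exact ⟨m, _, B', h6, by rw [h7, Amin_map]; exact h5⟩

theorem reg_up {V : Type} [NormedAddCommGroup V] [InnerProductSpace ℝ V] [FiniteDimensional ℝ V]
    [MeasurableSpace V] [BorelSpace V] (hV : Module.finrank ℝ V = 3) {v : Fin 4 → V} {T : Set V}
    (h : IsTet v T) {a : ℝ} (ha : ∀ j k, j ≠ k → ‖v j - v k‖ = a) :
    ∃ (m : ℕ) (u : Fin m → V) (B : ∀ i, Base (u i)), Covers T u B ∧
      ∑ i, area (B i) ≤ (1 / 2 - 1 / 5000) * Amin T := by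
  obtain ⟨e⟩ := exists_iso hV
  obtain ⟨h1, h2⟩ := h.map e
  obtain ⟨m, u, B, h3, h5⟩ := reg_up_E (a := a)
    (fun j k hjk => by rw [← map_sub, e.norm_map, ha j k hjk]) h1
  rw [← h2] at h3 h5
  obtain ⟨B', h6, h7, -⟩ := h3.map e.symm
  rw [img_symm] at h6
  exact ⟨m, _, B', h6, by rw [h7, ← Amin_map e]; exact h5⟩

end Vale.Agent.N243L
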